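import Vale.Agent.P147.Speed.Defs

/-!
P147, at most one nonzero velocity: regeneration blocks of positive probability with prescribed
displacements, from ellipticity and the unit steps.
-/

open MeasureTheory Filter Finset
open scoped ENNReal

namespace Vale.Agent.P147.Speed

open Vale.Agent.P147.Cond Vale.Agent.P147.Dir Vale.Agent.P147.Dir.Blocks

variable {d k : ℕ} [NeZero k] (v : Fin k → Site d) (μ : Measure (Row k)) [IsProbabilityMeasure μ]
  (ht : Site d →+ ℝ)

/-- The conditions making a word a first block. -/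
def Valid (b : Blk k) : Prop :=
  0 < blen b ∧ (∀ j < blen b, ht (bpos v b j) < ht (bpos v b (blen b))) ∧
    (∀ j ≤ blen b, 0 ≤ ht (bpos v b j)) ∧
    ∀ m, 0 < m → m < blen b → (∀ j < m, ht (bpos v b j) < ht (bpos v b m)) →
      ∃ q, m ≤ q ∧ q ≤ blen b ∧ ht (bpos v b q) < ht (bpos v b m)

theorem law_prefix_ne_zero (hell : ∀ i, ∀ᵐ p ∂μ, 0 < (p : Row k).1 i) (n : ℕ) (s : ℕ → Fin k) :
    law v μ {t | ∀ i < n, t i = s i} ≠ 0 := by
  rw [law_prefix, Ne, lintegral_eq_zero_iff (measurable_weight v s n)]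
  intro h
  have hpos : ∀ᵐ ω ∂envLaw (d := d) μ, weight v s n ω ≠ 0 := by
    have h' : ∀ i ∈ range n, ∀ᵐ ω ∂envLaw (d := d) μ, 0 < (ω (pos v s i)).1 (s i) := fun i _ =>
      (measurePreserving_eval_infinitePi (fun _ : Site d => μ) (pos v s i)).quasiMeasurePreserving.ae
        (hell (s i))
    filter_upwards [(Filter.eventually_all_finset (range n)).2 h'] with ω hω
    rw [weight, prod_ne_zero_iff]
    intro i hi
    exact (ENNReal.ofReal_pos.2 (hω i hi)).ne'
  have hne : ∃ ω, weight v s n ω ≠ 0 ∧ weight v s n ω = 0 := (hpos.and h).exists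
  obtain ⟨ω, h1, h2⟩ := hne
  exact h1 h2

/-- A valid word is the first block with positive probability. -/
theorem valid_ne_zero (hell : ∀ i, ∀ᵐ p ∂μ, 0 < (p : Row k).1 i)
    (hh : law v μ (StayUp v ht) ≠ 0) {b : Blk k} (hb : Valid v ht b) :
    (upLaw v μ ht).map (blk0 v ht) {b} ≠ 0 := by
  obtain ⟨h0, h1, h2, h3⟩ := hb
  let s : ℕ → Fin k := fun i => List.getD (b : List (Fin k)) i 0
  have hpre : pre (blen b) s = b := by
    refine List.ext_getElem List.length_ofFn fun i hi hi' => ?_
    simp only [pre, List.getElem_ofFn]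
    exact List.getD_eq_getElem _ _ hi'
  have hpos : ∀ j ≤ blen b, ht (bpos v b j) = ht (pos v s j) := fun j hj => by
    conv_lhs => rw [← hpre]
    rw [bpos_ofFn v s _ j hj]
  have hmem : s ∈ Fst v ht (blen b) {b} := by
    refine ⟨h0, fun j hj => ?_, fun j hj => ?_, fun m hm hmn hr => ?_, hpre⟩
    · rw [← hpos j hj.le, ← hpos _ le_rfl]; exact h1 j hj
    · rw [← hpos j hj]; exact h2 j hj
    · obtain ⟨q, q1, q2, q3⟩ := h3 m hm hmn fun j hj => by
        rw [hpos j (hj.trans hmn).le, hpos m hmn.le]; exact hr j hj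
      exact ⟨q, q1, q2, by rwa [← hpos q q2, ← hpos m hmn.le]⟩
  have hsum : (∑' n, law v μ (Fst v ht n {b})) ≠ 0 := fun h => by
    refine law_prefix_ne_zero v μ hell (blen b) s (measure_mono_null ?_
      (ENNReal.tsum_eq_zero.1 h (blen b)))
    exact fun t ht' => Fst_congr v ht _ _ s t (fun i hi => (ht' i hi).symm) hmem
  rw [Measure.map_apply (meas_blk0 v ht) trivial, upLaw_apply v μ ht (meas_blk0 v ht trivial)]
  have e := law_split v μ ht hh {b} MeasurableSet.univ
  simp only [Set.mem_univ, and_true, Set.inter_univ] at e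
  refine mul_ne_zero (ENNReal.inv_ne_zero.2 (measure_ne_top _ _)) ?_
  change law v μ (StayUp v ht ∩ {t | blk0 v ht t ∈ ({b} : Set (Blk k))}) ≠ 0
  rw [e]
  exact mul_ne_zero hsum hh

/-! ### Integer heights of words -/

/-- The integer height. -/
def hi (l : Fin d → ℤ) : Site d →+ ℤ where
  toFun x := ∑ j, l j * x j
  map_zero' := by simp
  map_add' x y := by simp [mul_add, sum_add_distrib]

omit [NeZero k] in
theorem dot_cast (l : Fin d → ℤ) (x : Site d) :
    dot (fun j => (l j : ℝ)) x = (hi l x : ℝ) := by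
  simp [dot, hi]

/-- Height of the first `j` steps of a word. -/
def sh (l : Fin d → ℤ) (w : List (Fin k)) (j : ℕ) : ℤ :=
  ((w.take j).map fun i => hi l (v i)).sum

omit [NeZero k] in
theorem ht_bpos (l : Fin d → ℤ) (w : List (Fin k)) (j : ℕ) :
    dot (fun j => (l j : ℝ)) (bpos v (w : Blk k) j) = (sh v l w j : ℝ) := by
  rw [dot_cast]
  simp only [bpos, sh, map_list_sum, List.map_map, List.map_take]
  rfl

omit [NeZero k] in
theorem sh_append (l : Fin d → ℤ) (A B : List (Fin k)) (j : ℕ) :
    sh v l (A ++ B) j = sh v l A j + sh v l B (j - A.length) := by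
  simp [sh, List.take_append]

omit [NeZero k] in
theorem sh_of_length_le (l : Fin d → ℤ) (A : List (Fin k)) {j : ℕ} (hj : A.length ≤ j) :
    sh v l A j = sh v l A A.length := by
  simp [sh, List.take_of_length_le hj]

omit [NeZero k] in
theorem sh_replicate (l : Fin d → ℤ) (n : ℕ) (i : Fin k) (j : ℕ) :
    sh v l (List.replicate n i) j = (min j n : ℕ) * hi l (v i) := by
  simp [sh, List.take_replicate, List.map_replicate, List.sum_replicate]

omit [NeZero k] in
theorem sh_zero (l : Fin d → ℤ) (A : List (Fin k)) : sh v l A 0 = 0 := by simp [sh]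

/-- All partial heights lie in an interval. -/
def Band (l : Fin d → ℤ) (w : List (Fin k)) (lo top : ℤ) : Prop :=
  ∀ j, lo ≤ sh v l w j ∧ sh v l w j ≤ top

omit [NeZero k] in
theorem Band.append {l : Fin d → ℤ} {A B : List (Fin k)} {lo top : ℤ} (hA : Band v l A lo top)
    (hB : Band v l B (lo - sh v l A A.length) (top - sh v l A A.length)) :
    Band v l (A ++ B) lo top := fun j => by
  rw [sh_append]
  rcases le_or_gt A.length j with h | h
  · rw [sh_of_length_le v l A h]
    have := hB (j - A.length)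
    constructor <;> linarith [this.1, this.2]
  · rw [Nat.sub_eq_zero_of_le h.le, sh_zero, add_zero]
    exact hA j

omit [NeZero k] in
theorem band_replicate (l : Fin d → ℤ) (n : ℕ) (i : Fin k) {lo top : ℤ}
    (h0 : lo ≤ 0 ∧ (0 : ℤ) ≤ top)
    (h1 : lo ≤ n * hi l (v i) ∧ (n : ℤ) * hi l (v i) ≤ top) :
    Band v l (List.replicate n i) lo top := fun j => by
  rw [sh_replicate]
  have hm : ((min j n : ℕ) : ℤ) ≤ n := by exact_mod_cast min_le_right j n
  have h2 : (0 : ℤ) ≤ ((min j n : ℕ) : ℤ) := Int.natCast_nonneg _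
  rcases le_total 0 (hi l (v i)) with h | h
  · constructor <;> nlinarith [h0.1, h1.2]
  · constructor <;> nlinarith [h0.2, h1.1]

omit [NeZero k] in
theorem band_any (l : Fin d → ℤ) {c : ℤ} (hc : ∀ i, |hi l (v i)| ≤ c) :
    ∀ w : List (Fin k), Band v l w (-(c * w.length)) (c * w.length) := by
  intro w
  induction w with
  | nil => intro j; simp [sh]
  | cons i w ih =>
    intro j
    have h0 := abs_le.1 (hc i)
    have hc0 : 0 ≤ c := (abs_nonneg _).trans (hc i)
    rcases j with _ | j
    · rw [sh_zero]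
      have : (0 : ℤ) ≤ c * ((i :: w).length : ℕ) := mul_nonneg hc0 (Int.natCast_nonneg _)
      constructor <;> linarith
    · have e : sh v l (i :: w) (j + 1) = hi l (v i) + sh v l w j := by simp [sh]
      rw [e, List.length_cons]
      push_cast
      constructor <;> nlinarith [(ih j).1, (ih j).2]

omit [NeZero k] in
/-- A word below its last step, reaching its top before returning to zero, followed by a step up. -/
theorem valid_append (l : Fin d → ℤ) {X : List (Fin k)} {i : Fin k} {H : ℤ} {p q : ℕ}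
    (hX : Band v l X 0 H) (hp : sh v l X p = H) (hq : sh v l X q = 0) (hpq : p ≤ q)
    (hqX : q ≤ X.length) (htop : sh v l X X.length = H) (hi0 : 0 < hi l (v i)) :
    Valid v (dot fun j => (l j : ℝ)) (X ++ [i] : List (Fin k)) := by
  have hlen : blen (X ++ [i] : List (Fin k)) = X.length + 1 := by simp [blen]
  have hle : ∀ j ≤ X.length, sh v l (X ++ [i]) j = sh v l X j := fun j hj => by
    rw [sh_append, Nat.sub_eq_zero_of_le hj, sh_zero, add_zero]
  have hend : sh v l (X ++ [i]) (X.length + 1) = H + hi l (v i) := by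
    rw [sh_append, sh_of_length_le v l X (Nat.le_succ _), htop, Nat.add_sub_cancel_left]
    simp [sh]
  have h0 : sh v l X 0 = 0 := sh_zero v l X
  refine ⟨by omega, fun j hj => ?_, fun j hj => ?_, fun m hm hmn hr => ?_⟩
  · rw [hlen] at hj
    rw [hlen, ht_bpos, ht_bpos, Int.cast_lt, hend, hle j (by omega)]
    linarith [(hX j).2]
  · rw [hlen] at hj
    rw [ht_bpos, Int.cast_nonneg_iff]
    rcases eq_or_lt_of_le hj with e | e
    · rw [e, hend]; linarith [(hX 0).2, h0]
    · rw [hle j (by omega)]; exact (hX j).1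
  · rw [hlen] at hmn
    have hr' : ∀ j < m, sh v l X j < sh v l X m := fun j hj => by
      have := hr j hj
      rwa [ht_bpos, ht_bpos, Int.cast_lt, hle j (by omega), hle m (by omega)] at this
    rcases le_or_gt m q with h | h
    · refine ⟨q, h, by omega, ?_⟩
      rw [ht_bpos, ht_bpos, Int.cast_lt, hle q hqX, hle m (by omega), hq]
      linarith [hr' 0 hm, h0]
    · exfalso
      linarith [hr' p (by omega), (hX m).2, hp]

/-! ### The blocks -/

variable (l : Fin d → ℤ)

omit [NeZero k] in
/-- A single step up. -/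
theorem valid_single {i : Fin k} (h : 0 < hi l (v i)) :
    Valid v (dot fun j => (l j : ℝ)) ([i] : List (Fin k)) :=
  valid_append v l (X := []) (H := 0) (p := 0) (q := 0) (fun j => by simp [sh]) (sh_zero v l _)
    (sh_zero v l _) le_rfl le_rfl (sh_zero v l _) h

omit [NeZero k] in
/-- A flat run followed by a step up. -/
theorem valid_flat (L : ℕ) {i i' : Fin k} (h : hi l (v i) = 0) (h' : 0 < hi l (v i')) :
    Valid v (dot fun j => (l j : ℝ)) (List.replicate L i ++ [i'] : List (Fin k)) :=
  valid_append v l (H := 0) (p := 0) (q := 0)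
    (band_replicate v l L i ⟨le_rfl, le_rfl⟩ (by simp [h])) (sh_zero v l _) (sh_zero v l _) le_rfl
    (Nat.zero_le _) (by simp [sh_replicate, h]) h'

omit [NeZero k] in
/-- Every site is the sum of a word, given all unit steps. -/
theorem exists_word (hunit : ∀ j, (∃ i, v i = Pi.single j 1) ∧ ∃ i, v i = Pi.single j (-1))
    (x : Site d) : ∃ w : List (Fin k), (w.map v).sum = x := by
  classical
  choose ip hip using fun j => (hunit j).1
  choose im him using fun j => (hunit j).2
  have hone : ∀ (j : Fin d) (c : ℤ), ∃ w : List (Fin k), (w.map v).sum = Pi.single j c := by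
    intro j c
    refine ⟨List.replicate c.toNat (ip j) ++ List.replicate (-c).toNat (im j), ?_⟩
    simp only [List.map_append, List.map_replicate, List.sum_append, List.sum_replicate, hip, him]
    funext q
    by_cases hq : q = j
    · subst hq; simp; omega
    · simp [hq]
  choose w hw using hone
  have : ∀ S : Finset (Fin d), ∃ u : List (Fin k),
      (u.map v).sum = ∑ j ∈ S, Pi.single j (x j) := by
    intro S
    induction S using Finset.induction with
    | empty => exact ⟨[], by simp⟩
    | @insert j S hj ih =>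
      obtain ⟨u, hu⟩ := ih
      exact ⟨w j (x j) ++ u, by simp [sum_insert hj, hu, hw]⟩
  obtain ⟨u, hu⟩ := this univ
  exact ⟨u, hu.trans (univ_sum_single x)⟩

omit [NeZero k] in
/-- For finitely many flat targets, valid words with displacement a common shift plus the target. -/
theorem exists_valid (hunit : ∀ j, (∃ i, v i = Pi.single j 1) ∧ ∃ i, v i = Pi.single j (-1))
    {up dn : Fin k} (hup : 0 < hi l (v up)) (hdn : v dn = -v up)
    {ι : Type*} [Fintype ι] (T : ι → Site d) (hT : ∀ e, hi l (T e) = 0) :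
    ∃ w : Site d, ∀ e, ∃ b : List (Fin k), Valid v (dot fun j => (l j : ℝ)) b ∧
      bpos v (b : Blk k) (blen (b : Blk k)) = w + T e := by
  classical
  choose M hM using fun e => exists_word v hunit (T e)
  obtain ⟨c, hc0, hc⟩ : ∃ c : ℕ, 0 ≤ c ∧ ∀ i, |hi l (v i)| ≤ c :=
    ⟨(univ.sup fun i => (hi l (v i)).natAbs), Nat.zero_le _, fun i => by
      rw [Int.abs_eq_natAbs]
      exact_mod_cast le_sup (f := fun i => (hi l (v i)).natAbs) (mem_univ i)⟩
  obtain ⟨N, hN⟩ : ∃ N : ℕ, ∀ e, 2 * (c * (M e).length) ≤ N :=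
    ⟨univ.sup fun e => 2 * (c * (M e).length),
      fun e => le_sup (f := fun e => 2 * (c * (M e).length)) (mem_univ e)⟩
  set g := hi l (v up) with hg
  have hg1 : 1 ≤ g := hup
  have hgd : hi l (v dn) = -g := by rw [hdn, map_neg]
  refine ⟨(N + 1) • v up, fun e => ?_⟩
  set K := c * (M e).length with hK
  let P : List (Fin k) := List.replicate N up ++ List.replicate N dn
  let R : List (Fin k) := List.replicate K up ++ (M e ++ List.replicate K dn)
  let X : List (Fin k) := P ++ (R ++ List.replicate N up)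
  have hMs : sh v l (M e) (M e).length = 0 := by
    have : (hi l) ((M e).map v).sum = sh v l (M e) (M e).length := by
      simp [sh, map_list_sum, List.map_map, Function.comp_def]
    rw [hM, hT] at this
    exact this.symm
  have hsr : ∀ n i, sh v l (List.replicate n i) (List.replicate n i).length = n * hi l (v i) :=
    fun n i => by simp [sh_replicate]
  have hsa : ∀ A B : List (Fin k), sh v l (A ++ B) (A ++ B).length =
      sh v l A A.length + sh v l B B.length := fun A B => by
    rw [sh_append, List.length_append, sh_of_length_le v l A (Nat.le_add_right _ _),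
      Nat.add_sub_cancel_left]
  have hP : sh v l P P.length = 0 := by
    simp only [P, hsa, hsr, hgd]; rw [← hg]; ring
  have hR : sh v l R R.length = 0 := by
    simp only [R, hsa, hsr, hgd, hMs]; rw [← hg]; ring
  have hN0 : (0 : ℤ) ≤ N * g := mul_nonneg (Int.natCast_nonneg _) (by linarith)
  have hK0 : (0 : ℤ) ≤ K * g := mul_nonneg (Int.natCast_nonneg _) (by linarith)
  have hKN : (2 : ℤ) * K * g ≤ N * g := by
    refine mul_le_mul_of_nonneg_right ?_ (by linarith)
    exact_mod_cast hN e
  have hKg : ((c : ℤ) * ((M e).length : ℕ)) ≤ K * g := by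
    rw [hK]; push_cast
    exact le_mul_of_one_le_right (by positivity) hg1
  have bP : Band v l P 0 (N * g) := by
    refine (band_replicate v l N up ⟨le_rfl, hN0⟩ ⟨hN0, le_rfl⟩).append v ?_
    rw [hsr, ← hg]
    refine band_replicate v l N dn ⟨by linarith, by linarith⟩ ?_
    rw [hgd]; constructor <;> linarith
  have bR : Band v l R 0 (N * g) := by
    refine (band_replicate v l K up ⟨le_rfl, hN0⟩ ⟨hK0, by rw [← hg]; linarith⟩).append v ?_
    rw [hsr, ← hg]
    refine Band.append v (fun j => ?_) ?_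
    · have := band_any v l hc (M e) j
      constructor <;> linarith [this.1, this.2]
    · rw [hMs]
      refine band_replicate v l K dn ⟨by linarith, by linarith⟩ ?_
      rw [hgd]; constructor <;> linarith
  have bX : Band v l X 0 (N * g) := by
    refine bP.append v ?_
    rw [hP, sub_zero, sub_zero]
    refine bR.append v ?_
    rw [hR, sub_zero, sub_zero]
    exact band_replicate v l N up ⟨le_rfl, hN0⟩ ⟨hN0, le_rfl⟩
  have hXP : ∀ j ≤ P.length, sh v l X j = sh v l P j := fun j hj => by
    simp only [X]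
    rw [sh_append, Nat.sub_eq_zero_of_le hj, sh_zero, add_zero]
  have hPl : P.length = 2 * N := by simp [P]; ring
  have hXl : P.length ≤ X.length := by simp [X]
  refine ⟨X ++ [up], valid_append v l (p := N) (q := P.length) bX ?_ ?_ (by omega) hXl ?_ hup, ?_⟩
  · rw [hXP N (by omega)]
    simp only [P]
    rw [sh_append, List.length_replicate, Nat.sub_self, sh_zero, add_zero, sh_replicate, min_self]
  · rw [hXP _ le_rfl]; exact hP
  · simp only [X, hsa, hP, hR, hsr]; rw [← hg]; ring
  · simp only [bpos, blen, List.take_length, X, P, R, List.map_append, List.map_replicate,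
      List.sum_append, List.sum_replicate, List.map_cons, List.map_nil, List.sum_cons,
      List.sum_nil, hM, hdn, smul_neg, add_smul, one_smul]
    abel

variable {l}

omit [IsProbabilityMeasure μ] in
theorem l_ne_zero (hh : law v μ (StayUp v (dot fun j => (l j : ℝ))) ≠ 0) : ∃ a, l a ≠ 0 := by
  by_contra h
  push Not at h
  refine hh (measure_mono_null (fun t ht' => ?_) measure_empty)
  have h0 : ∀ x : Site d, dot (fun j => (l j : ℝ)) x = 0 := fun x => by simp [dot, h]
  have := ht'.2
  simp only [up, Set.mem_ofPred_eq, h0] at this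
  exact (not_tendsto_const_atTop (x := (0 : ℝ)) (l := atTop) this).elim

omit [NeZero k] in
theorem exists_up (hunit : ∀ j, (∃ i, v i = Pi.single j 1) ∧ ∃ i, v i = Pi.single j (-1))
    (h : ∃ a, l a ≠ 0) : ∃ up dn : Fin k, 0 < hi l (v up) ∧ v dn = -v up := by
  obtain ⟨a, ha⟩ := h
  obtain ⟨⟨p, hp⟩, m, hm⟩ := hunit a
  have e : v m = -v p := by rw [hp, hm, ← Pi.single_neg]
  have hpv : hi l (v p) = l a := by simp [hi, hp, Pi.single_apply]
  rcases lt_or_gt_of_ne ha with h | h
  · exact ⟨m, p, by rw [e, map_neg, hpv]; linarith, by rw [e, neg_neg]⟩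
  · exact ⟨p, m, by rw [hpv]; exact h, e⟩

/-- Independent flat directions among the displacements of blocks. -/
theorem exists_coins (hell : ∀ i, ∀ᵐ p ∂μ, 0 < (p : Row k).1 i)
    (hunit : ∀ j, (∃ i, v i = Pi.single j 1) ∧ ∃ i, v i = Pi.single j (-1))
    (hh : law v μ (StayUp v (dot fun j => (l j : ℝ))) ≠ 0) :
    ∃ (w : Site d) (z : Fin (d - 1) → Site d), LinearIndependent ℤ z ∧
      (∀ i, ∑ j, l j * z i j = 0) ∧ ∀ eps : Fin (d - 1) → Bool,
        (upLaw v μ (dot fun j => (l j : ℝ))).map (blk0 v (dot fun j => (l j : ℝ)))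
          {b | disp v b = w + ∑ i ∈ univ.filter (fun i => eps i = true), z i} ≠ 0 := by
  classical
  obtain ⟨a, ha⟩ := l_ne_zero v μ hh
  obtain ⟨m, rfl⟩ : ∃ m, d = m + 1 := Nat.exists_eq_add_one.2 a.pos
  let z : Fin m → Site (m + 1) := fun i =>
    Pi.single (a.succAbove i) (l a) - Pi.single a (l (a.succAbove i))
  have hz : ∀ i, hi l (z i) = 0 := fun i => by
    simp only [z, map_sub]
    simp [hi, Pi.single_apply, mul_comm]
  obtain ⟨up, dn, hup, hdn⟩ := exists_up v hunit ⟨a, ha⟩
  obtain ⟨w, hw⟩ := exists_valid v l hunit hup hdn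
    (fun eps : Fin m → Bool => ∑ i ∈ univ.filter (fun i => eps i = true), z i)
    fun eps => by simp [map_sum, hz]
  refine ⟨w, z, ?_, hz, fun eps => ?_⟩
  · rw [Fintype.linearIndependent_iff]
    intro g hg i
    have := congrFun hg (a.succAbove i)
    simp [z, Pi.single_apply, Fin.succAbove_ne] at this
    exact this.resolve_right ha
  · obtain ⟨b, hb, hd⟩ := hw eps
    refine ne_of_gt (lt_of_lt_of_le (pos_iff_ne_zero.2 (valid_ne_zero v μ _ hell hh hb))
      (measure_mono ?_))
    intro x hx
    cases hx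
    exact hd

/-- A single step up is a block of positive probability. -/
theorem single_ne_zero (hell : ∀ i, ∀ᵐ p ∂μ, 0 < (p : Row k).1 i)
    (hh : law v μ (StayUp v (dot fun j => (l j : ℝ))) ≠ 0) {i : Fin k}
    (hpos : 0 < ∑ j, l j * v i j) :
    ∃ b : Blk k, blen b = 1 ∧ bpos v b 0 = 0 ∧ disp v b = v i ∧
      (upLaw v μ (dot fun j => (l j : ℝ))).map (blk0 v (dot fun j => (l j : ℝ))) {b} ≠ 0 :=
  ⟨([i] : List (Fin k)), rfl, by simp [bpos], by simp [disp, bpos, blen],
    valid_ne_zero v μ _ hell hh (valid_single v l hpos)⟩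

/-- A flat run followed by a step up is a block of positive probability. -/
theorem flat_ne_zero (hell : ∀ i, ∀ᵐ p ∂μ, 0 < (p : Row k).1 i)
    (hh : law v μ (StayUp v (dot fun j => (l j : ℝ))) ≠ 0) (L : ℕ) {i i' : Fin k}
    (h0 : ∑ j, l j * v i j = 0) (hpos : 0 < ∑ j, l j * v i' j) :
    ∃ b : Blk k, blen b = L + 1 ∧ (∀ q ≤ L, bpos v b q = q • v i) ∧
      disp v b = L • v i + v i' ∧
      (upLaw v μ (dot fun j => (l j : ℝ))).map (blk0 v (dot fun j => (l j : ℝ))) {b} ≠ 0 :=
  ⟨(List.replicate L i ++ [i'] : List (Fin k)), by simp [blen], fun q hq => by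
      simp [bpos, List.take_append, List.take_replicate, min_eq_left hq,
        Nat.sub_eq_zero_of_le hq, List.map_replicate, List.sum_replicate],
    by simp [disp, bpos, blen, List.map_replicate, List.sum_replicate, List.take_of_length_le],
    valid_ne_zero v μ _ hell hh (valid_flat v l L h0 hpos)⟩

/-- Blocks along an axis pointing upwards and along every signed unit direction. -/
theorem exists_axis (hell : ∀ i, ∀ᵐ p ∂μ, 0 < (p : Row k).1 i)
    (hunit : ∀ j, (∃ i, v i = Pi.single j 1) ∧ ∃ i, v i = Pi.single j (-1))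
    (hh : law v μ (StayUp v (dot fun j => (l j : ℝ))) ≠ 0) {a : Fin d} {s : ℤ}
    (hs : s = 1 ∨ s = -1) (hsa : 0 < s * l a) {j : Fin d} {r : ℤ} (hr : r = 1 ∨ r = -1) :
    (∃ b : Blk k, blen b = 1 ∧ bpos v b 0 = 0 ∧ disp v b = Pi.single a s ∧
      (upLaw v μ (dot fun j => (l j : ℝ))).map (blk0 v (dot fun j => (l j : ℝ))) {b} ≠ 0) ∧
    (0 < r * l j → ∃ b : Blk k, blen b = 1 ∧ bpos v b 0 = 0 ∧ disp v b = Pi.single j r ∧
      (upLaw v μ (dot fun j => (l j : ℝ))).map (blk0 v (dot fun j => (l j : ℝ))) {b} ≠ 0) ∧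
    (r * l j = 0 → ∀ L : ℕ, ∃ b : Blk k, blen b = L + 1 ∧
      (∀ q ≤ L, bpos v b q = q • Pi.single j r) ∧
      disp v b = L • Pi.single j r + Pi.single a s ∧
      (upLaw v μ (dot fun j => (l j : ℝ))).map (blk0 v (dot fun j => (l j : ℝ))) {b} ≠ 0) := by
  have hst : ∀ (q : Fin d) (c : ℤ), c = 1 ∨ c = -1 → ∃ i, v i = Pi.single q c := by
    rintro q c (rfl | rfl)
    exacts [(hunit q).1, (hunit q).2]
  have hsum : ∀ (q : Fin d) (c : ℤ) (i : Fin k), v i = Pi.single q c →
      ∑ j, l j * v i j = c * l q := fun q c i h => by simp [h, Pi.single_apply, mul_comm]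
  obtain ⟨ia, hia⟩ := hst a s hs
  obtain ⟨ij, hij⟩ := hst j r hr
  refine ⟨hia ▸ single_ne_zero v μ hell hh (by rw [hsum a s ia hia]; exact hsa),
    fun h => hij ▸ single_ne_zero v μ hell hh (by rw [hsum j r ij hij]; exact h), fun h L => ?_⟩
  rw [← hia, ← hij]
  exact flat_ne_zero v μ hell hh L (by rw [hsum j r ij hij]; exact h)
    (by rw [hsum a s ia hia]; exact hsa)

end Vale.Agent.P147.Speed
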