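import Vale.Agent.P147.Speed.Defs
import Vale.Agent.P147.Glue.Avoid
import Vale.Agent.P147.Dir.Velocity
import Vale.Agent.P147.Mixing

/-!
P147, at most one nonzero velocity: the avoidance probability dominates the probability that two
independent iid concatenations of blocks occupy disjoint sites, and a positive speed makes the
mean block length finite.
-/

open MeasureTheory Filter Finset
open scoped ENNReal Topology

namespace Vale.Agent.P147.Speed

open Vale.Agent.P147.Cond Vale.Agent.P147.Dir Vale.Agent.P147.Dir.Blocks Vale.Agent.P147.Glue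

variable {d k : ℕ} [NeZero k] (v : Fin k → Site d) (μ : Measure (Row k)) [IsProbabilityMeasure μ]
  (ht : Site d →+ ℝ)

omit [NeZero k] in
theorem measurableSet_occ (X : Blk k → Site d) (W : Blk k → Finset (Site d)) (z : Site d) :
    MeasurableSet {r : ℕ → Blk k | z ∈ Occ X W r} := by
  have e : {r : ℕ → Blk k | z ∈ Occ X W r} =
      ⋃ q : ℕ, (fun (r : ℕ → Blk k) (i : Fin (q + 1)) => r i) ⁻¹'
        {g | ∃ w ∈ W (g (Fin.last q)), (∑ p : Fin q, X (g p.castSucc)) + w = z} := by
    ext r
    simp [Occ, Finset.sum_range]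
  rw [e]
  exact .iUnion fun q => MeasurableSet.of_discrete.preimage
    (measurable_pi_lambda _ fun i => measurable_pi_apply _)

omit [NeZero k] in
theorem measurableSet_disjoint_occ :
    MeasurableSet {x : (ℕ → Blk k) × (ℕ → Blk k) | Disjoint (pastOcc v x.1) (futOcc v x.2)} := by
  have e : {x : (ℕ → Blk k) × (ℕ → Blk k) | Disjoint (pastOcc v x.1) (futOcc v x.2)} =
      ⋂ z : Site d, ({x | z ∈ pastOcc v x.1} ∩ {x | z ∈ futOcc v x.2})ᶜ := by
    ext x
    simp [Set.disjoint_left]
  rw [e]
  refine .iInter fun z => MeasurableSet.compl (MeasurableSet.inter ?_ ?_)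
  · have h1 : MeasurableSet {r : ℕ → Blk k | z ∈ pastOcc v r} := by
      simp only [pastOcc]
      exact measurableSet_occ _ _ z
    exact measurable_fst h1
  · have h1 : MeasurableSet {r : ℕ → Blk k | z ∈ futOcc v r} := by
      simp only [futOcc]
      exact measurableSet_occ _ _ z
    exact measurable_snd h1

variable {v ht} in
omit [NeZero k] in
theorem disp_block {t : ℕ → Fin k} (h : Regular v ht t) (i : ℕ) :
    disp v (block v ht i t) =
      pos v t (regTime v ht (i + 1) t) - pos v t (regTime v ht i t) := by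
  rw [disp, (h.2 i).2.2.2.2 _ le_rfl, (h.2 i).2.2.2.1, Nat.add_sub_cancel' (h.2 i).1.le]

variable {v ht} in
theorem pos_mem_futOcc {t : ℕ → Fin k} (h : Regular v ht t) (m : ℕ) :
    pos v t m ∈ futOcc v fun i => block v ht i t := by
  have hsum : ∀ q, ∑ p ∈ range q, disp v (block v ht p t) = pos v t (regTime v ht q t) := by
    intro q
    induction q with
    | zero => simp [regTime, pos]
    | succ q ih => rw [sum_range_succ, ih, disp_block h]; abel
  obtain ⟨j, h1, h2⟩ := h.exists_block m
  have hlen : m - regTime v ht j t < blen (block v ht j t) := by rw [(h.2 j).2.2.2.1]; omega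
  refine ⟨j, _, mem_image_of_mem _ (mem_range.2 hlen), ?_⟩
  rw [hsum, (h.2 j).2.2.2.2 _ hlen.le, Nat.add_sub_cancel' h1, add_sub_cancel]

variable {v ht} in
theorem past_subset_pastOcc {t : ℕ → Fin k} (h : Regular v ht t) (n : ℕ) :
    Past v ht n t ⊆ pastOcc v fun i => block v ht (if i < n then n - 1 - i else i) t := by
  have hsum : ∀ q ≤ n,
      ∑ p ∈ range q, -disp v (block v ht (if p < n then n - 1 - p else p) t) =
        pos v t (regTime v ht (n - q) t) - pos v t (regTime v ht n t) := by
    intro q hq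
    induction q with
    | zero => simp
    | succ q ih =>
      rw [sum_range_succ, ih (by omega), if_pos (by omega : q < n), disp_block h,
        show n - 1 - q + 1 = n - q by omega, show n - 1 - q = n - (q + 1) by omega]
      abel
  rintro z ⟨m, hm, rfl⟩
  obtain ⟨j, h1, h2⟩ := h.exists_block m
  have hj : j < n := by
    by_contra hc
    exact absurd (lt_of_le_of_lt h1 hm) (not_lt.2 (h.strictMono.monotone (not_lt.1 hc)))
  have hlen : m - regTime v ht j t < blen (block v ht j t) := by rw [(h.2 j).2.2.2.1]; omega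
  refine ⟨n - 1 - j, bpos v (block v ht j t) (m - regTime v ht j t) - disp v (block v ht j t),
    ?_, ?_⟩
  · dsimp only
    rw [if_pos (by omega), show n - 1 - (n - 1 - j) = j by omega]
    exact mem_image_of_mem _ (mem_range.2 hlen)
  · rw [hsum _ (by omega), show n - (n - 1 - j) = j + 1 by omega,
      (h.2 j).2.2.2.2 _ hlen.le, Nat.add_sub_cancel' h1, disp_block h]
    abel

/-- The past at the `n`-th regeneration is dominated by reversed iid blocks. -/
theorem avoidProb_ge (hh : law v μ (StayUp v ht) ≠ 0) (hh' : law v μ (StayUp v (-ht)) ≠ 0)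
    {ν ν' : Measure (Blk k)} [IsProbabilityMeasure ν] [IsProbabilityMeasure ν']
    (hν : (upLaw v μ ht).map (fun t i => block v ht i t) = Measure.infinitePi (fun _ : ℕ => ν))
    (hν' : (upLaw v μ (-ht)).map (fun t i => block v (-ht) i t) =
      Measure.infinitePi (fun _ : ℕ => ν'))
    (n : ℕ) :
    ((Measure.infinitePi fun _ : ℕ => ν).prod (Measure.infinitePi fun _ : ℕ => ν'))
      {x | Disjoint (pastOcc v x.1) (futOcc v x.2)} ≤ avoidProb v μ ht n := by
  have := isProb_upLaw v μ ht hh
  have := isProb_upLaw v μ (-ht) hh'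
  set σ : ℕ → ℕ := fun i => if i < n then n - 1 - i else i with hσdef
  have hσ : Function.Injective σ := fun a b hab => by
    simp only [hσdef] at hab
    split_ifs at hab <;> omega
  have hΦ : Measurable fun (t : ℕ → Fin k) (i : ℕ) => block v ht i t :=
    measurable_pi_lambda _ fun i => measurable_block v ht i
  have hΦσ : Measurable fun (t : ℕ → Fin k) (i : ℕ) => block v ht (σ i) t :=
    measurable_pi_lambda _ fun i => measurable_block v ht (σ i)
  have hΦ' : Measurable fun (t : ℕ → Fin k) (i : ℕ) => block v (-ht) i t :=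
    measurable_pi_lambda _ fun i => measurable_block v (-ht) i
  have hmp := measurePreserving_reindex ν hσ
  have hrev : (upLaw v μ ht).map (fun t i => block v ht (σ i) t) =
      Measure.infinitePi fun _ : ℕ => ν := by
    conv_rhs => rw [← hmp.map_eq, ← hν, Measure.map_map hmp.measurable hΦ]
    rfl
  rw [← hrev, ← hν', Measure.map_prod_map _ _ hΦσ hΦ',
    Measure.map_apply (hΦσ.prodMap hΦ') (measurableSet_disjoint_occ v), avoidProb]
  refine measure_mono_ae ?_
  filter_upwards [Measure.quasiMeasurePreserving_fst.ae (regTime_reg v μ ht hh),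
    Measure.quasiMeasurePreserving_snd.ae (regTime_reg v μ (-ht) hh')] with x hr hr'
  intro hd m hm
  exact Set.disjoint_left.1 hd (past_subset_pastOcc hr n hm) (pos_mem_futOcc hr' m)

/-- A positive speed makes the mean block length finite. -/
theorem lintegral_blen (h : law v μ (up v ht) ≠ 0) {c : ℝ} (hc : 0 < c)
    (hsp : law v μ
      (up v ht \ {t | Tendsto (fun n : ℕ => ht (pos v t n) / n) atTop (𝓝 c)}) = 0)
    {ν : Measure (Blk k)} [IsProbabilityMeasure ν]
    (hν : (upLaw v μ ht).map (fun t i => block v ht i t) = Measure.infinitePi (fun _ : ℕ => ν))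
    (hint : Integrable (bH v ht) ν) : ∫⁻ b, (blen b : ℝ≥0∞) ∂ν ≠ ⊤ := by
  have hs := stayUp_ne_zero v μ ht h
  have := isProb_upLaw v μ ht hs
  have hΦ : Measurable fun (t : ℕ → Fin k) (i : ℕ) => block v ht i t :=
    measurable_pi_lambda _ fun i => measurable_block v ht i
  have hlim : ∀ g : Blk k → ℝ, Integrable g ν → ∀ᵐ t ∂upLaw v μ ht,
      Tendsto (fun n : ℕ => (∑ i ∈ range n, g (block v ht i t)) / n) atTop (𝓝 (∫ b, g b ∂ν)) :=
    fun g hg => ae_of_ae_map hΦ.aemeasurable (hν ▸ mean_tendsto ν measurable_from_top hg)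
  have hspeed : ∀ᵐ t ∂upLaw v μ ht,
      Tendsto (fun n : ℕ => ht (pos v t n) / n) atTop (𝓝 c) := by
    refine ae_upLaw v μ ht ?_
    filter_upwards [measure_eq_zero_iff_ae_notMem.1 hsp] with t h1 hst
    by_contra h2
    exact h1 ⟨hst.2, h2⟩
  have hg : ∀ M : ℕ, Integrable (fun b => min (blen b : ℝ) M) ν := fun M =>
    Integrable.of_bound measurable_from_top.aestronglyMeasurable M (ae_of_all _ fun b => by
      rw [Real.norm_eq_abs, abs_of_nonneg (le_min (Nat.cast_nonneg _) (Nat.cast_nonneg _))]
      exact min_le_right _ _)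
  have hM : ∀ M : ℕ, ∫ b, min (blen b : ℝ) M ∂ν ≤ (∫ b, bH v ht b ∂ν) / c := by
    intro M
    obtain ⟨t, hr, h1, h2, h3⟩ := ((regTime_reg v μ ht hs).and ((hlim _ hint).and
      ((hlim _ (hg M)).and hspeed))).exists
    have hR : Regular v ht t := hr
    have hτ : Tendsto (fun j => regTime v ht j t) atTop atTop := hR.strictMono.tendsto_atTop
    have h4 : Tendsto (fun j => ht (pos v t (regTime v ht j t)) / (regTime v ht j t : ℝ))
        atTop (𝓝 c) := h3.comp hτ
    have h5 : Tendsto (fun j : ℕ => (regTime v ht j t : ℝ) / j) atTop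
        (𝓝 ((∫ b, bH v ht b ∂ν) / c)) := by
      refine (h1.div h4 hc.ne').congr' ?_
      filter_upwards [h4.eventually (lt_mem_nhds hc)] with j hj
      have hne : ht (pos v t (regTime v ht j t)) ≠ 0 := fun e => by simp [e] at hj
      rw [Pi.div_apply, hR.sum_bH, div_div_div_eq]
      field_simp
    refine le_of_tendsto_of_tendsto' h2 h5 fun j => div_le_div_of_nonneg_right ?_
      (Nat.cast_nonneg _)
    induction j with
    | zero => simp [regTime]
    | succ j ih =>
      rw [sum_range_succ]
      have h6 := min_le_left (blen (block v ht j t) : ℝ) (M : ℝ)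
      rw [(hR.2 j).2.2.2.1, Nat.cast_sub (hR.2 j).1.le] at h6 ⊢
      linarith
  have hsup : ∀ b : Blk k, (blen b : ℝ≥0∞) = ⨆ M : ℕ, ENNReal.ofReal (min (blen b : ℝ) M) := by
    intro b
    refine le_antisymm (le_iSup_of_le (blen b) (by simp)) (iSup_le fun M => ?_)
    exact (ENNReal.ofReal_le_ofReal (min_le_left _ _)).trans_eq (ENNReal.ofReal_natCast _)
  refine ne_top_of_le_ne_top (b := ENNReal.ofReal ((∫ b, bH v ht b ∂ν) / c))
    ENNReal.ofReal_ne_top ?_
  simp only [hsup]
  rw [lintegral_iSup (f := fun (M : ℕ) (b : Blk k) => ENNReal.ofReal (min (blen b : ℝ) M))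
    (fun _ => measurable_from_top) fun a b hab x =>
    ENNReal.ofReal_le_ofReal (min_le_min_left _ (by exact_mod_cast hab))]
  refine iSup_le fun M => ?_
  rw [← ofReal_integral_eq_lintegral_ofReal (hg M)
    (ae_of_all _ fun b => le_min (Nat.cast_nonneg _) (Nat.cast_nonneg _))]
  exact ENNReal.ofReal_le_ofReal (hM M)

end Vale.Agent.P147.Speed
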