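import Mathlib

/-!
Concentration of sums of iid vectors in the level hyperplanes: if the law of one vector charges
all corners of a parallelepiped of dimension `m ≥ 3` lying in one level of `h`, then the point
masses of the `n`-th sum are bounded by `ρ n (level)` with `∑ n, ∑ k, ρ n k < ∞`.
-/

namespace Vale.Agent.P147.Speed

open MeasureTheory ProbabilityTheory
open scoped ENNReal

/-- Symmetric binomial weights. -/
noncomputable def bin (K : ℕ) (a : ℤ) : ℝ≥0∞ :=
  if 0 ≤ a then (K.choose a.toNat : ℝ≥0∞) / 2 ^ K else 0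

lemma bin_zero (a : ℤ) : bin 0 a = if a = 0 then 1 else 0 := by
  unfold bin
  by_cases h : a = 0
  · simp [h]
  · by_cases h0 : 0 ≤ a
    · have : a.toNat ≠ 0 := by omega
      simp [h, h0, Nat.choose_eq_zero_of_lt (Nat.pos_of_ne_zero this)]
    · simp [h, h0]

lemma bin_succ (K : ℕ) (a : ℤ) : bin (K + 1) a = (2 : ℝ≥0∞)⁻¹ * (bin K a + bin K (a - 1)) := by
  have e : ∀ x : ℝ≥0∞, x / 2 ^ (K + 1) = (2 : ℝ≥0∞)⁻¹ * (x / 2 ^ K) := fun x => by
    rw [pow_succ, div_eq_mul_inv, div_eq_mul_inv,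
      ENNReal.mul_inv (Or.inl (by simp)) (Or.inl (by simp)), ← mul_assoc, mul_comm]
  unfold bin
  rcases lt_trichotomy a 0 with h | h | h
  · rw [if_neg (not_le.2 h), if_neg (not_le.2 h), if_neg (by omega)]
    simp
  · subst h
    simp [e]
  · obtain ⟨j, rfl⟩ : ∃ j : ℕ, a = (j : ℤ) + 1 := ⟨(a - 1).toNat, by omega⟩
    have e1 : ((j : ℤ) + 1).toNat = j + 1 := by omega
    simp only [add_sub_cancel_right, Int.natCast_nonneg, if_true,
      show (0 : ℤ) ≤ j + 1 by omega, e1, Int.toNat_natCast]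
    rw [e, ← ENNReal.add_div, Nat.choose_succ_succ']
    push_cast
    rw [add_comm]

lemma centralBinom_sq_le (k : ℕ) : (2 * k + 1) * k.centralBinom ^ 2 ≤ 16 ^ k := by
  induction k with
  | zero => simp
  | succ k ih =>
    refine Nat.le_of_mul_le_mul_left ?_ (Nat.pow_pos (n := 2) (Nat.succ_pos k))
    have h : ((k + 1) * (k + 1).centralBinom) ^ 2 = (2 * (2 * k + 1) * k.centralBinom) ^ 2 := by
      rw [Nat.succ_mul_centralBinom_succ]
    have hq : (2 * k + 3) * (2 * k + 1) ≤ 4 * (k + 1) ^ 2 := by nlinarith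
    calc (k + 1) ^ 2 * ((2 * (k + 1) + 1) * (k + 1).centralBinom ^ 2)
        = (2 * k + 3) * ((k + 1) * (k + 1).centralBinom) ^ 2 := by ring
      _ = 4 * ((2 * k + 3) * (2 * k + 1)) * ((2 * k + 1) * k.centralBinom ^ 2) := by
          rw [h]; ring
      _ ≤ 4 * (4 * (k + 1) ^ 2) * 16 ^ k := by gcongr
      _ = (k + 1) ^ 2 * 16 ^ (k + 1) := by ring

lemma choose_sq_le (K j : ℕ) : (K + 1) * K.choose j ^ 2 ≤ 4 ^ K := by
  have h := Nat.choose_le_middle j K
  refine le_trans (Nat.mul_le_mul_left _ (Nat.pow_le_pow_left h 2)) ?_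
  rcases Nat.even_or_odd' K with ⟨k, rfl | rfl⟩
  · rw [show 2 * k / 2 = k by omega, ← Nat.centralBinom_eq_two_mul_choose, pow_mul]
    simpa using centralBinom_sq_le k
  · rw [show (2 * k + 1) / 2 = k by omega]
    have e : (k + 1).centralBinom = 2 * (2 * k + 1).choose k := by
      have := Nat.choose_succ_succ' (2 * k + 1) k
      rw [Nat.choose_symm_half] at this
      rw [Nat.centralBinom_eq_two_mul_choose, show 2 * (k + 1) = 2 * k + 1 + 1 by ring, this]
      ring
    have := centralBinom_sq_le (k + 1)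
    rw [e] at this
    have e2 : 16 ^ (k + 1) = 4 * 4 ^ (2 * k + 1) := by
      rw [show (16 : ℕ) = 4 ^ 2 by norm_num, ← pow_mul, ← pow_succ']
      ring_nf
    nlinarith [this, e2]

/-- `(K+1)^(-1/2)`. -/
noncomputable def rootBd (K : ℕ) : ℝ≥0∞ := ENNReal.ofReal (Real.sqrt (K + 1))⁻¹

lemma bin_le (K : ℕ) (a : ℤ) : bin K a ≤ rootBd K := by
  unfold bin
  split_ifs with h
  · have hc : ((K + 1 : ℕ) : ℝ) * (K.choose a.toNat : ℝ) ^ 2 ≤ ((2 : ℝ) ^ K) ^ 2 := by
      rw [← pow_mul, mul_comm K 2, pow_mul]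
      exact_mod_cast choose_sq_le K a.toNat
    have hs : 0 < Real.sqrt ((K : ℝ) + 1) := Real.sqrt_pos.2 (by positivity)
    have hle : (K.choose a.toNat : ℝ) / 2 ^ K ≤ (Real.sqrt ((K : ℝ) + 1))⁻¹ := by
      rw [div_le_iff₀ (by positivity), inv_mul_eq_div, le_div_iff₀ hs]
      refine (sq_le_sq₀ (by positivity) (by positivity)).1 ?_
      rw [mul_pow, Real.sq_sqrt (by positivity)]
      push_cast at hc
      linarith
    refine le_trans (le_of_eq ?_) (ENNReal.ofReal_le_ofReal hle)
    rw [ENNReal.ofReal_div_of_pos (by positivity), ENNReal.ofReal_natCast,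
      ENNReal.ofReal_pow (by norm_num), ENNReal.ofReal_ofNat]
  · simp

lemma rootBd_le_one (K : ℕ) : rootBd K ≤ 1 := by
  refine ENNReal.ofReal_le_one.2 (inv_le_one_of_one_le₀ ?_)
  exact Real.one_le_sqrt.2 (by simp)

lemma tsum_rootBd_pow {m : ℕ} (hm : 3 ≤ m) : ∑' K, rootBd K ^ m ≠ ⊤ := by
  have e : ∀ K : ℕ, rootBd K ^ 3 = ENNReal.ofReal (((K + 1 : ℕ) : ℝ) ^ (-(3 / 2 : ℝ))) := by
    intro K
    rw [rootBd, ← ENNReal.ofReal_pow (by positivity)]
    congr 1
    rw [Real.sqrt_eq_rpow, ← Real.rpow_neg (by positivity), ← Real.rpow_natCast,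
      ← Real.rpow_mul (by positivity)]
    push_cast
    norm_num
  have hs : Summable fun K : ℕ => ((K + 1 : ℕ) : ℝ) ^ (-(3 / 2 : ℝ)) :=
    (summable_nat_add_iff (f := fun n : ℕ => (n : ℝ) ^ (-(3 / 2 : ℝ))) 1).2
      (Real.summable_nat_rpow.2 (by norm_num))
  refine ne_top_of_le_ne_top (b := ∑' K, rootBd K ^ 3) ?_ (ENNReal.tsum_le_tsum fun K =>
    pow_le_pow_right_of_le_one' (rootBd_le_one K) hm)
  rw [tsum_congr e, ← ENNReal.ofReal_tsum_of_nonneg (fun K => by positivity) hs]
  exact ENNReal.ofReal_ne_top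

section Group

variable {G : Type*} [AddCommGroup G] {m : ℕ}

/-- Sum of the `z i` chosen by `e`. -/
def corner (z : Fin m → G) (e : Fin m → Bool) : G := ∑ i, if e i then z i else 0

/-- `j ↦ ∑ j i • z i`. -/
def comb (z : Fin m → G) (j : Fin m → ℤ) : G := ∑ i, j i • z i

/-- The 0-1 vector of `e`. -/
def bit (e : Fin m → Bool) : Fin m → ℤ := fun i => if e i then 1 else 0

lemma corner_eq (z : Fin m → G) (e : Fin m → Bool) : corner z e = comb z (bit e) := by
  unfold corner comb bit
  refine Finset.sum_congr rfl fun i _ => ?_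
  cases e i <;> simp

lemma comb_add (z : Fin m → G) (j k : Fin m → ℤ) : comb z (j + k) = comb z j + comb z k := by
  simp [comb, add_smul, Finset.sum_add_distrib]

/-- Law of the number of times each direction was used in `K` coins. -/
noncomputable def cw (K : ℕ) (j : Fin m → ℤ) : ℝ≥0∞ := ∏ i, bin K (j i)

lemma cw_zero (j : Fin m → ℤ) : cw 0 j = if j = 0 then 1 else 0 := by
  unfold cw
  split_ifs with h
  · simp [h, bin_zero]
  · obtain ⟨i, hi⟩ := Function.ne_iff.1 h
    exact Finset.prod_eq_zero (Finset.mem_univ i) (by simp [bin_zero, show j i ≠ 0 from hi])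

lemma cw_succ (K : ℕ) (j : Fin m → ℤ) :
    cw (K + 1) j = (2 : ℝ≥0∞)⁻¹ ^ m * ∑ e : Fin m → Bool, cw K (j - bit e) := by
  have h := Fintype.prod_sum (fun (i : Fin m) (b : Bool) => bin K (j i - if b then 1 else 0))
  simp only [Fintype.sum_bool, if_true, Bool.false_eq_true, if_false, sub_zero] at h
  calc cw (K + 1) j = ∏ i, ((2 : ℝ≥0∞)⁻¹ * (bin K (j i - 1) + bin K (j i))) := by
        refine Finset.prod_congr rfl fun i _ => ?_
        rw [bin_succ, add_comm]
    _ = _ := by
        rw [Finset.prod_mul_distrib, Finset.prod_const, Finset.card_univ, Fintype.card_fin, h]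
        rfl

lemma cw_le (K : ℕ) (j : Fin m → ℤ) : cw K j ≤ rootBd K ^ m := by
  refine (Finset.prod_le_prod' fun i _ => bin_le K (j i)).trans (le_of_eq ?_)
  simp

variable (μ μ' : G → ℝ≥0∞) (p : ℝ≥0∞) (w : G) (z : Fin m → G)

/-- Convolution of `f` with the weights `ν`. -/
noncomputable def tr (ν f : G → ℝ≥0∞) (x : G) : ℝ≥0∞ := ∑' g, f (x - g) * ν g

/-- Point masses of the `n`-th sum. -/
noncomputable def mass : ℕ → G → ℝ≥0∞
  | 0 => fun x => open Classical in if x = 0 then 1 else 0
  | n + 1 => tr μ (mass n)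

/-- The part of the `n`-th sum with `K` coins, coins removed. -/
noncomputable def rest : ℕ → ℕ → G → ℝ≥0∞
  | 0, 0 => fun x => open Classical in if x = 0 then 1 else 0
  | 0, _ + 1 => fun _ => 0
  | n + 1, 0 => tr μ' (rest n 0)
  | n + 1, K + 1 => fun x => tr μ' (rest n (K + 1)) x + p * rest n K x

/-- `K` coins added. -/
noncomputable def addCoins (K : ℕ) (f : G → ℝ≥0∞) (x : G) : ℝ≥0∞ :=
  ∑' j : Fin m → ℤ, cw K j * f (x - K • w - comb z j)

lemma addCoins_tr (K : ℕ) (f : G → ℝ≥0∞) (x : G) :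
    tr μ' (addCoins w z K f) x = addCoins w z K (tr μ' f) x := by
  unfold tr addCoins
  simp only [← ENNReal.tsum_mul_right, ← ENNReal.tsum_mul_left]
  rw [ENNReal.tsum_comm]
  refine tsum_congr fun j => tsum_congr fun g => ?_
  rw [mul_assoc]
  congr 3
  abel

lemma addCoins_succ (K : ℕ) (f : G → ℝ≥0∞) (x : G) :
    addCoins w z (K + 1) f x = (2 : ℝ≥0∞)⁻¹ ^ m *
      ∑ e : Fin m → Bool, addCoins w z K f (x - (w + corner z e)) := by
  unfold addCoins
  rw [← Summable.tsum_finsetSum (fun _ _ => ENNReal.summable), ← ENNReal.tsum_mul_left]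
  simp only [cw_succ, mul_assoc, Finset.sum_mul]
  rw [ENNReal.tsum_mul_left, ENNReal.tsum_mul_left]
  congr 1
  rw [Summable.tsum_finsetSum (fun _ _ => ENNReal.summable),
    Summable.tsum_finsetSum (fun _ _ => ENNReal.summable)]
  refine Finset.sum_congr rfl fun e _ => ?_
  rw [← (Equiv.addRight (bit e)).tsum_eq]
  refine tsum_congr fun j => ?_
  simp only [Equiv.coe_addRight, add_sub_cancel_right]
  congr 2
  rw [comb_add, ← corner_eq, succ_nsmul]
  abel

variable {μ μ' p w z}

lemma mass_eq (p0 : ℝ≥0∞) (hp : p = 2 ^ m * p0)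
    (hμ : ∀ g, μ g = μ' g + p0 * ∑ e : Fin m → Bool,
      open Classical in if g = w + corner z e then 1 else 0) :
    ∀ n x, mass μ n x = ∑' K, addCoins w z K (rest μ' p n K) x := by
  classical
  intro n
  induction n with
  | zero =>
    intro x
    rw [tsum_eq_single 0 (fun K hK => by
      obtain ⟨k, rfl⟩ := Nat.exists_eq_succ_of_ne_zero hK
      simp [addCoins, rest])]
    unfold addCoins
    rw [tsum_eq_single 0 (fun j hj => by simp [cw_zero, hj])]
    simp [mass, rest, cw_zero, comb]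
  | succ n ih =>
    intro x
    have h1 : mass μ (n + 1) x = tr μ' (mass μ n) x
        + p0 * ∑ e : Fin m → Bool, mass μ n (x - (w + corner z e)) := by
      simp only [mass, tr, hμ, mul_add, ENNReal.tsum_add]
      congr 1
      simp only [Finset.mul_sum]
      rw [Summable.tsum_finsetSum (fun _ _ => ENNReal.summable)]
      refine Finset.sum_congr rfl fun e _ => ?_
      rw [tsum_eq_single (w + corner z e) (fun g hg => by simp [hg])]
      simp [mul_comm]
    have h2 : tr μ' (mass μ n) x = ∑' K, addCoins w z K (tr μ' (rest μ' p n K)) x := by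
      simp only [← addCoins_tr]
      simp only [tr, ih, ← ENNReal.tsum_mul_right]
      exact ENNReal.tsum_comm
    have h3 : p0 * ∑ e : Fin m → Bool, mass μ n (x - (w + corner z e)) =
        ∑' K, addCoins w z (K + 1) (fun y => p * rest μ' p n K y) x := by
      simp only [ih]
      rw [← Summable.tsum_finsetSum (fun _ _ => ENNReal.summable), ← ENNReal.tsum_mul_left]
      refine tsum_congr fun K => ?_
      have e : addCoins w z (K + 1) (fun y => p * rest μ' p n K y) x =
          p * addCoins w z (K + 1) (rest μ' p n K) x := by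
        unfold addCoins
        rw [← ENNReal.tsum_mul_left]
        exact tsum_congr fun j => mul_left_comm _ _ _
      rw [e, addCoins_succ, ← mul_assoc, hp, mul_right_comm ((2 : ℝ≥0∞) ^ m), ← mul_pow,
        ENNReal.mul_inv_cancel (by simp) (by simp), one_pow, one_mul]
    rw [h1, h2, h3, tsum_eq_zero_add' ENNReal.summable, add_assoc, ← ENNReal.tsum_add,
      tsum_eq_zero_add' ENNReal.summable (f := fun K => addCoins w z K (rest μ' p (n + 1) K) x)]
    congr 1
    refine tsum_congr fun K => ?_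
    simp only [addCoins, rest, mul_add, ENNReal.tsum_add]

lemma tsum_tr (ν f : G → ℝ≥0∞) : ∑' x, tr ν f x = (∑' x, f x) * ∑' g, ν g := by
  unfold tr
  rw [ENNReal.tsum_comm, ← ENNReal.tsum_mul_left]
  refine tsum_congr fun g => ?_
  rw [ENNReal.tsum_mul_right]
  congr 1
  exact (Equiv.subRight g).tsum_eq f

lemma tsum_rest_le (hp0 : p ≠ 0) (hpt : p ≠ ⊤) (hpq : ∑' g, μ' g + p = 1) (K : ℕ) :
    ∑' n, ∑' x, rest μ' p n K x ≤ p⁻¹ := by
  classical
  refine ENNReal.tsum_le_of_sum_range_le fun N => ?_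
  induction N generalizing K with
  | zero => simp
  | succ N ih =>
    have hs : (∑' g, μ' g) * p⁻¹ + p * p⁻¹ = p⁻¹ := by rw [← add_mul, hpq, one_mul]
    rw [Finset.sum_range_succ']
    cases K with
    | zero =>
      simp only [rest, tsum_tr, ← Finset.sum_mul]
      rw [tsum_ite_eq (0 : G) (fun _ => (1 : ℝ≥0∞))]
      calc _ ≤ p⁻¹ * (∑' g, μ' g) + 1 := by gcongr; exact ih 0
        _ = p⁻¹ := by
          conv_rhs => rw [← hs]
          rw [ENNReal.mul_inv_cancel hp0 hpt, mul_comm]
    | succ K =>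
      simp only [rest, ENNReal.tsum_add, tsum_tr, ENNReal.tsum_mul_left, tsum_zero, add_zero,
        Finset.sum_add_distrib, ← Finset.sum_mul, ← Finset.mul_sum]
      calc _ ≤ p⁻¹ * (∑' g, μ' g) + p * p⁻¹ := by gcongr <;> exact ih _
        _ = p⁻¹ := by rw [mul_comm p⁻¹]; exact hs

/-- The bound on the `n`-th sum at level `k`. -/
noncomputable def levelBd (μ' : G → ℝ≥0∞) (p : ℝ≥0∞) (h : G →+ ℤ) (w : G) (m n : ℕ) (k : ℤ) :
    ℝ≥0∞ :=
  ∑' K, rootBd K ^ m * ∑' y, if h y + (K : ℤ) * h w = k then rest μ' p n K y else 0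

lemma tsum_levelBd (μ' : G → ℝ≥0∞) (p : ℝ≥0∞) (h : G →+ ℤ) (w : G) (m n : ℕ) :
    ∑' k, levelBd μ' p h w m n k = ∑' K, rootBd K ^ m * ∑' y, rest μ' p n K y := by
  unfold levelBd
  rw [ENNReal.tsum_comm]
  refine tsum_congr fun K => ?_
  rw [ENNReal.tsum_mul_left, ENNReal.tsum_comm]
  congr 1
  refine tsum_congr fun y => ?_
  rw [tsum_eq_single (h y + (K : ℤ) * h w) (fun k hk => if_neg (Ne.symm hk)), if_pos rfl]

/-- Point masses of a convolution power that charges a parallelepiped in one level of `h`, as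
bounded by the number of coins used. -/
theorem exists_levelBd (hsum : ∑' g, μ g = 1) (h : G →+ ℤ) (w : G) (z : Fin m → G)
    (hz : Function.Injective (comb z)) (hh : ∀ i, h (z i) = 0)
    (hpos : ∀ e : Fin m → Bool, μ (w + corner z e) ≠ 0) :
    ∃ (μ' : G → ℝ≥0∞) (p : ℝ≥0∞), p ≠ 0 ∧ p ≠ ⊤ ∧ ∑' g, μ' g + p = 1 ∧
      ∀ n x, mass μ n x ≤ levelBd μ' p h w m n (h x) := by
  classical
  obtain ⟨e0, -, he0⟩ := (Finset.univ : Finset (Fin m → Bool)).exists_min_image
    (fun e => μ (w + corner z e)) Finset.univ_nonempty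
  set p0 := μ (w + corner z e0) with hp0def
  have hinj : Function.Injective fun e : Fin m → Bool => w + corner z e := by
    intro a b hab
    simp only [corner_eq] at hab
    have := hz (add_left_cancel hab)
    funext i
    have hi := congrFun this i
    revert hi
    simp only [bit]
    cases a i <;> cases b i <;> simp
  let U : G → ℝ≥0∞ := fun g => p0 * ∑ e : Fin m → Bool, if g = w + corner z e then 1 else 0
  have hU : ∀ g, U g ≤ μ g := by
    intro g
    by_cases hg : ∃ e, g = w + corner z e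
    · obtain ⟨e, rfl⟩ := hg
      simp only [U]
      rw [Finset.sum_eq_single e (fun b _ hb => by
        rw [if_neg]; exact fun hcon => hb (hinj hcon).symm) (by simp), if_pos rfl, mul_one]
      exact he0 e (Finset.mem_univ e)
    · simp only [U]
      rw [Finset.sum_eq_zero (fun b _ => if_neg fun hcon => hg ⟨b, hcon⟩)]
      simp
  let μ' : G → ℝ≥0∞ := fun g => μ g - U g
  have hμ : ∀ g, μ g = μ' g + U g := fun g => (tsub_add_cancel_of_le (hU g)).symm
  let p : ℝ≥0∞ := 2 ^ m * p0
  have hUs : ∑' g, U g = p := by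
    simp only [U, p, ENNReal.tsum_mul_left]
    rw [Summable.tsum_finsetSum (fun _ _ => ENNReal.summable), mul_comm]
    congr 1
    simp
  have hpq : ∑' g, μ' g + p = 1 := by
    rw [← hUs, ← ENNReal.tsum_add, ← hsum]
    exact tsum_congr fun g => (hμ g).symm
  have hp0 : p ≠ 0 := mul_ne_zero (by simp) (hpos e0)
  have hpt : p ≠ ⊤ := ne_top_of_le_ne_top ENNReal.one_ne_top (hpq ▸ le_add_self)
  refine ⟨μ', p, hp0, hpt, hpq, ?_⟩
  intro n x
  rw [mass_eq p0 rfl hμ n x]
  refine ENNReal.tsum_le_tsum fun K => ?_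
  calc addCoins w z K (rest μ' p n K) x
      ≤ rootBd K ^ m * ∑' j, rest μ' p n K (x - K • w - comb z j) := by
        rw [← ENNReal.tsum_mul_left]
        exact ENNReal.tsum_le_tsum fun j => mul_le_mul_of_nonneg_right (cw_le K j) zero_le
    _ ≤ _ := by
        gcongr
        refine le_trans (le_of_eq ?_) (ENNReal.tsum_comp_le_tsum_of_injective
          (f := fun j => x - K • w - comb z j) (fun a b hab => hz (sub_right_injective hab))
          (fun y => if h y + (K : ℤ) * h w = h x then rest μ' p n K y else 0))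
        refine tsum_congr fun j => ?_
        rw [if_pos]
        simp only [map_sub, map_nsmul, comb, map_sum, map_zsmul, hh, smul_zero,
          Finset.sum_const_zero, sub_zero, nsmul_eq_mul]
        ring

/-- Point masses of a convolution power that charges a parallelepiped in one level of `h`. -/
theorem mass_le_level (hsum : ∑' g, μ g = 1) (hm : 3 ≤ m) (h : G →+ ℤ) (w : G) (z : Fin m → G)
    (hz : Function.Injective (comb z)) (hh : ∀ i, h (z i) = 0)
    (hpos : ∀ e : Fin m → Bool, μ (w + corner z e) ≠ 0) :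
    ∃ ρ : ℕ → ℤ → ℝ≥0∞, (∑' n, ∑' k, ρ n k) ≠ ⊤ ∧ ∀ n x, mass μ n x ≤ ρ n (h x) := by
  obtain ⟨μ', p, hp0, hpt, hpq, hle⟩ := exists_levelBd hsum h w z hz hh hpos
  refine ⟨levelBd μ' p h w m, ?_, hle⟩
  rw [tsum_congr (tsum_levelBd μ' p h w m), ENNReal.tsum_comm]
  simp only [ENNReal.tsum_mul_left]
  refine ne_top_of_le_ne_top ?_ (ENNReal.tsum_le_tsum fun K =>
    mul_le_mul_of_nonneg_left (tsum_rest_le hp0 hpt hpq K) zero_le)
  rw [ENNReal.tsum_mul_right]
  exact ENNReal.mul_ne_top (tsum_rootBd_pow hm) (ENNReal.inv_ne_top.2 hp0)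

end Group

/-- Point masses of iid sums are those of the convolution powers. -/
theorem iid_eq_mass {β : Type*} [Countable β] [MeasurableSpace β] [DiscreteMeasurableSpace β]
    (ν : Measure β) [IsProbabilityMeasure ν] {d : ℕ} (D : β → (Fin d → ℤ)) (n : ℕ)
    (x : Fin d → ℤ) :
    (Measure.infinitePi fun _ : ℕ => ν) {s | ∑ i ∈ Finset.range n, D (s i) = x} =
      mass (fun g => ν (D ⁻¹' {g})) n x := by
  classical
  set μ : (Fin d → ℤ) → ℝ≥0∞ := fun g => ν (D ⁻¹' {g}) with hμdef
  have hD : Measurable D := fun s _ => MeasurableSet.of_discrete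
  induction n generalizing x with
  | zero =>
    by_cases hx : x = 0
    · simp [mass, hx]
    · simp [mass, hx, Ne.symm hx]
  | succ n ih =>
    let P : Measure (ℕ → β) := Measure.infinitePi fun _ : ℕ => ν
    let X : ℕ → (ℕ → β) → (Fin d → ℤ) := fun i s => D (s i)
    have hX : ∀ i, Measurable (X i) := fun i => hD.comp (measurable_pi_apply i)
    have hind : iIndepFun X P := iIndepFun_infinitePi (fun _ => hD)
    have hI : IndepFun (∑ i ∈ Finset.range n, X i) (X n) P :=
      hind.indepFun_finsetSum_of_notMem hX (by simp)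
    let S : (ℕ → β) → (Fin d → ℤ) := fun s => ∑ i ∈ Finset.range n, D (s i)
    have hS : S = ∑ i ∈ Finset.range n, X i := by
      funext s; simp [S, X, Finset.sum_apply]
    have hset : {s : ℕ → β | ∑ i ∈ Finset.range (n + 1), D (s i) = x}
        = ⋃ g, (S ⁻¹' {x - g} ∩ X n ⁻¹' {g}) := by
      ext s
      simp [S, X, Finset.sum_range_succ, eq_sub_iff_add_eq]
    have hmS : Measurable S := Finset.measurable_sum (Finset.range n) (fun i _ => hX i)
    change P {s | ∑ i ∈ Finset.range (n + 1), D (s i) = x} = _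
    rw [hset, measure_iUnion
      (fun a b hab => Set.disjoint_left.2 fun s hs ht => hab (hs.2.symm.trans ht.2))
      (fun g => (hmS (MeasurableSet.singleton _)).inter (hX n (MeasurableSet.singleton g)))]
    simp only [mass, tr]
    refine tsum_congr fun g => ?_
    have hone : P (X n ⁻¹' {g}) = μ g := by
      rw [show X n ⁻¹' {g} = Function.eval n ⁻¹' (D ⁻¹' {g}) from rfl,
        ← Measure.map_apply (measurable_pi_apply n) (hD (MeasurableSet.singleton g)),
        Measure.infinitePi_map_eval]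
    rw [hS, hI.measure_inter_preimage_eq_mul _ _ (MeasurableSet.singleton _)
      (MeasurableSet.singleton _), hone, ← hS]
    congr 1
    exact ih (x - g)

/-- The `n`-th iid sum: point masses are at most `ρ n (level)`, summable over `n` and levels. -/
theorem exists_level_bound {β : Type*} [Countable β] [MeasurableSpace β]
    [DiscreteMeasurableSpace β] (ν : Measure β) [IsProbabilityMeasure ν] {d m : ℕ}
    (D : β → (Fin d → ℤ)) (h : (Fin d → ℤ) →+ ℤ) (hm : 3 ≤ m) (z : Fin m → (Fin d → ℤ))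
    (hli : LinearIndependent ℤ z) (hh : ∀ i, h (z i) = 0) (w : Fin d → ℤ)
    (hpos : ∀ eps : Fin m → Bool,
      ν {b | D b = w + ∑ i, if eps i then z i else 0} ≠ 0) :
    ∃ ρ : ℕ → ℤ → ℝ≥0∞, (∑' n, ∑' k, ρ n k) ≠ ⊤ ∧ ∀ n x,
      (Measure.infinitePi fun _ : ℕ => ν) {s | ∑ i ∈ Finset.range n, D (s i) = x} ≤ ρ n (h x) := by
  classical
  let μ : (Fin d → ℤ) → ℝ≥0∞ := fun g => ν (D ⁻¹' {g})
  have hD : Measurable D := fun s _ => MeasurableSet.of_discrete
  have hsum : ∑' g, μ g = 1 := by
    simp only [μ]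
    rw [← measure_iUnion (fun a b hab => Disjoint.preimage D (by simpa using hab))
      (fun g => hD (MeasurableSet.singleton g)), ← Set.preimage_iUnion,
      Set.iUnion_of_singleton, Set.preimage_univ, measure_univ]
  have hinj : Function.Injective (comb z) := by
    intro a b hab
    funext i
    have h0 : ∑ i, (a i - b i) • z i = 0 := by
      simpa [comb, sub_smul, Finset.sum_sub_distrib, sub_eq_zero] using hab
    exact sub_eq_zero.1 (Fintype.linearIndependent_iff.1 hli _ h0 i)
  obtain ⟨ρ, hρ, hle⟩ := mass_le_level (μ := μ) hsum hm h w z hinj hh hpos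
  refine ⟨ρ, hρ, fun n x => ?_⟩
  rw [iid_eq_mass]
  exact hle n x

end Vale.Agent.P147.Speed
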