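import Vale.Agent.P147.Speed.Prefix
import Vale.Agent.P147.Speed.Coins
import Vale.Agent.P147.Speed.Conc
import Vale.Agent.P147.Speed.Reduce

/-!
P147, at most one nonzero velocity: positive speeds in two opposite directions are impossible in
dimension at least four.
-/

open MeasureTheory Filter Finset
open scoped ENNReal Topology

namespace Vale.Agent.P147.Speed

open Vale.Agent.P147.Cond Vale.Agent.P147.Dir Vale.Agent.P147.Dir.Blocks Vale.Agent.P147.Glue

variable {d k : ℕ} [NeZero k] (v : Fin k → Site d) (μ : Measure (Row k)) [IsProbabilityMeasure μ]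

/-- Iid blocks with lateral coins form a spread out concatenation. -/
theorem spread_blocks {ν : Measure (Blk k)} [IsProbabilityMeasure ν] (h : Site d →+ ℤ)
    (X : Blk k → Site d) (W : Blk k → Finset (Site d)) (hX : ∀ᵐ b ∂ν, h (X b) < 0)
    (hW : ∀ b, (W b).card ≤ blen b) (hlen : ∫⁻ b, (blen b : ℝ≥0∞) ∂ν ≠ ⊤) {m : ℕ} (hm : 3 ≤ m)
    (w : Site d) (z : Fin m → Site d) (hli : LinearIndependent ℤ z) (hz : ∀ i, h (z i) = 0)
    (hpos : ∀ eps : Fin m → Bool, ν {b | X b = w + ∑ i, if eps i then z i else 0} ≠ 0) :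
    Spread ν X W h := by
  refine ⟨exists_level_bound ν X h hm z hli hz w hpos, ?_, ?_⟩
  · have hall : ∀ᵐ s ∂iid ν, ∀ i : ℕ, h (X (s i)) < 0 := ae_all_iff.2 fun i =>
      (measurePreserving_eval_infinitePi (fun _ : ℕ => ν) i).quasiMeasurePreserving.ae hX
    filter_upwards [hall] with s hs
    refine (strictAnti_nat_of_succ_lt fun q => ?_).injective
    simp only [start, sum_range_succ, map_add]
    linarith [hs q]
  · exact ne_top_of_le_ne_top hlen (lintegral_mono fun b => Nat.cast_le.2 (hW b))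

/-- The sites of a block seen from its end lie at nonpositive heights, and its height is
positive. -/
theorem ae_block_facts (l : Fin d → ℤ)
    (hs : law v μ (StayUp v (dot fun j => (l j : ℝ))) ≠ 0) :
    ∀ᵐ b ∂(upLaw v μ (dot fun j => (l j : ℝ))).map (blk0 v (dot fun j => (l j : ℝ))),
      0 < hi l (disp v b) ∧ ∀ w ∈ pastW v b, hi l w ≤ 0 := by
  refine (ae_map_iff (meas_blk0 v _).aemeasurable trivial).2 ?_
  filter_upwards [regTime_reg v μ _ hs] with t hr
  obtain ⟨hlt, -, -, hlen, hpos⟩ := hr.2 0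
  obtain ⟨-, -, hrec, -, -⟩ := hr.2 (0 + 1)
  rw [block_zero] at hlen hpos
  have h0 : regTime v (dot fun j => (l j : ℝ)) 0 t = 0 := rfl
  rw [h0] at hlen hpos hlt
  simp only [Nat.zero_add] at hpos hlt hrec hlen
  have hp0 : pos v t 0 = 0 := by simp [pos]
  simp only [hp0, sub_zero] at hpos
  rw [Nat.sub_zero] at hlen
  have hdisp : disp v (blk0 v (dot fun j => (l j : ℝ)) t) =
      pos v t (regTime v (dot fun j => (l j : ℝ)) 1 t) := by
    rw [disp, hpos _ le_rfl, hlen]
  refine ⟨?_, fun w hw => ?_⟩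
  · have := hrec 0 hlt
    rw [hdisp]
    simp only [hp0, map_zero, dot_cast] at this
    exact_mod_cast this
  · obtain ⟨q, hq, rfl⟩ := mem_image.1 hw
    rw [mem_range] at hq
    rw [map_sub, hdisp, hpos q hq.le, sub_nonpos]
    have := hrec q (by rwa [hlen] at hq)
    simp only [dot_cast] at this
    exact_mod_cast this.le

/-- The expected length of the first block is finite at positive speed. -/
theorem lintegral_len (ht : Site d →+ ℝ) (h : law v μ (up v ht) ≠ 0) {c : ℝ} (hc : 0 < c)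
    (hsp : law v μ (up v ht \ {t | Tendsto (fun n : ℕ => ht (pos v t n) / n) atTop (𝓝 c)}) = 0) :
    ∫⁻ b, (blen b : ℝ≥0∞) ∂(upLaw v μ ht).map (blk0 v ht) ≠ ⊤ := by
  have hs := stayUp_ne_zero v μ ht h
  have := isProb_upLaw v μ ht hs
  have := Measure.isProbabilityMeasure_map (μ := upLaw v μ ht) (meas_blk0 v ht).aemeasurable
  refine lintegral_blen v μ ht h hc hsp (map_block v μ ht hs)
    ⟨(Measurable.of_discrete (f := bH v ht)).aestronglyMeasurable, ?_⟩
  rw [hasFiniteIntegral_iff_ofReal ((bH_pos v μ ht hs).mono fun b hb => hb.le)]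
  exact lt_top_iff_ne_top.2 (lintegral_bH v μ ht hs)

omit [NeZero k] in
theorem card_pastW (b : Blk k) : (pastW v b).card ≤ blen b :=
  card_image_le.trans (card_range _).le

omit [NeZero k] in
theorem card_futW (b : Blk k) : (futW v b).card ≤ blen b :=
  card_image_le.trans (card_range _).le

theorem hi_single (l : Fin d → ℤ) (a : Fin d) (s : ℤ) : hi l (Pi.single a s) = s * l a := by
  show ∑ j, l j * (Pi.single a s : Site d) j = s * l a
  rw [sum_eq_single a (fun j _ hj => by simp [hj]) (by simp), Pi.single_eq_same, mul_comm]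

theorem hi_nsmul_single (l : Fin d → ℤ) (q : ℕ) (a : Fin d) (s : ℤ) :
    hi l (q • Pi.single a s) = q * (s * l a) := by
  rw [map_nsmul, hi_single, nsmul_eq_mul]

/-- Forced first pieces of the path ahead: a straight lateral run. -/
theorem exists_run (l : Fin d → ℤ)
    (hell : ∀ i, ∀ᵐ p ∂μ, 0 < (p : Row k).1 i)
    (hunit : ∀ j, (∃ i, v i = Pi.single j 1) ∧ ∃ i, v i = Pi.single j (-1))
    (hh : law v μ (StayUp v (dot fun j => (((-l) j : ℤ) : ℝ))) ≠ 0)
    {a j : Fin d} (haj : j ≠ a) {s : ℤ} (hs : s = 1 ∨ s = -1) (hsa : 0 < s * l a)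
    {r : ℤ} (hr : r = 1 ∨ r = -1) (hrl : r * l j ≤ 0) (L : ℕ) :
    ∃ (n : ℕ) (g : ℕ → Blk k), (∀ i < n, (upLaw v μ (dot fun j => (((-l) j : ℤ) : ℝ))).map
        (blk0 v (dot fun j => (((-l) j : ℤ) : ℝ))) {g i} ≠ 0) ∧
      (∀ z ∈ headOcc (disp v) (futW v) n g, ∃ q : ℕ, z = q • Pi.single j r) ∧
      start (disp v) g n j = L * r := by
  obtain ⟨-, h1, h0⟩ := exists_axis v μ (l := -l) hell hunit hh (a := a) (s := -s)
    (by rcases hs with rfl | rfl <;> simp) (by simpa using hsa) (j := j) (r := r) hr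
  rcases hrl.lt_or_eq with hlt | heq
  · obtain ⟨b, hb1, hb0, hbd, hb⟩ := h1 (by simpa using hlt)
    have hst : ∀ q, start (disp v) (fun _ => b) q = q • Pi.single j r := fun q => by
      simp [start, hbd]
    refine ⟨L, fun _ => b, fun _ _ => hb, ?_, ?_⟩
    · rintro z ⟨q, -, w, hw, rfl⟩
      obtain ⟨i, hi', rfl⟩ := mem_image.1 hw
      rw [hb1, mem_range, Nat.lt_one_iff] at hi'
      subst hi'
      exact ⟨q, by rw [hst, hb0, add_zero]⟩
    · rw [hst]; simp
  · obtain ⟨b, hb1, hbq, hbd, hb⟩ := h0 (by simpa using heq) L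
    refine ⟨1, fun _ => b, fun _ _ => hb, ?_, ?_⟩
    · rintro z ⟨q, hq, w, hw, rfl⟩
      obtain ⟨i, hi', rfl⟩ := mem_image.1 hw
      rw [hb1, mem_range] at hi'
      obtain rfl : q = 0 := by omega
      exact ⟨i, by simp [start, hbq i (Nat.le_of_lt_succ hi')]⟩
    · simp [start, hbd, Pi.single_eq_of_ne haj]

/-- Positive speeds in two opposite directions are impossible. -/
theorem no_opposite (hd : 4 ≤ d) (hell : ∀ i, ∀ᵐ p ∂μ, 0 < (p : Row k).1 i)
    (hunit : ∀ j, (∃ i, v i = Pi.single j 1) ∧ ∃ i, v i = Pi.single j (-1))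
    (l : Fin d → ℤ) (hp : law v μ (up v (dot fun j => (l j : ℝ))) ≠ 0)
    (hm : law v μ (up v (dot fun j => (((-l) j : ℤ) : ℝ))) ≠ 0) {c c' : ℝ} (hc : 0 < c)
    (hc' : 0 < c')
    (hsp : law v μ (up v (dot fun j => (l j : ℝ)) \
      {t | Tendsto (fun n : ℕ => dot (fun j => (l j : ℝ)) (pos v t n) / n) atTop (𝓝 c)}) = 0)
    (hsm : law v μ (up v (dot fun j => (((-l) j : ℤ) : ℝ)) \
      {t | Tendsto (fun n : ℕ => dot (fun j => (((-l) j : ℤ) : ℝ)) (pos v t n) / n) atTop
        (𝓝 c')}) = 0) : False := by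
  have he : (dot fun j => (((-l) j : ℤ) : ℝ)) = -(dot fun j => (l j : ℝ)) := by
    ext x
    simp [dot]
  have hs := stayUp_ne_zero v μ _ hp
  have hs' := stayUp_ne_zero v μ _ hm
  have := isProb_upLaw v μ _ hs
  have := isProb_upLaw v μ _ hs'
  set ν := (upLaw v μ (dot fun j => (l j : ℝ))).map (blk0 v (dot fun j => (l j : ℝ))) with hν
  set ν' := (upLaw v μ (dot fun j => (((-l) j : ℤ) : ℝ))).map
    (blk0 v (dot fun j => (((-l) j : ℤ) : ℝ))) with hν'
  have : IsProbabilityMeasure ν :=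
    Measure.isProbabilityMeasure_map (meas_blk0 v _).aemeasurable
  have : IsProbabilityMeasure ν' :=
    Measure.isProbabilityMeasure_map (meas_blk0 v _).aemeasurable
  have hneg : ∀ x, hi (-l) x = -hi l x := fun x => by
    simp [hi]
  have hX : ∀ᵐ b ∂ν, hi l (-disp v b) < 0 ∧ ∀ w ∈ pastW v b, hi l w ≤ 0 :=
    (ae_block_facts v μ l hs).mono fun b hb => ⟨by rw [map_neg]; linarith [hb.1], hb.2⟩
  have hX' : ∀ᵐ b ∂ν', hi l (disp v b) < 0 :=
    (ae_block_facts v μ (-l) hs').mono fun b hb => by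
      have := hb.1
      rw [hneg] at this
      linarith
  -- spreading
  have hR : Spread ν (fun b => -disp v b) (pastW v) (hi l) := by
    obtain ⟨w, z, hli, hz, hz'⟩ := exists_coins v μ (l := l) hell hunit hs
    refine spread_blocks (hi l) _ _ (hX.mono fun b hb => hb.1) (card_pastW v)
      (lintegral_len v μ _ hp hc hsp) (m := d - 1) (by omega) (-w) (fun i => -z i) hli.neg
      (fun i => by rw [map_neg, show hi l (z i) = 0 from hz i, neg_zero]) fun eps => ?_
    intro h0
    refine hz' eps (measure_mono_null (fun b hb => ?_) h0)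
    show -disp v b = _
    rw [show disp v b = _ from hb, neg_add, sum_filter, ← sum_neg_distrib]
    exact congrArg _ (sum_congr rfl fun i _ => by split_ifs <;> simp)
  have hS : Spread ν' (disp v) (futW v) (hi l) := by
    obtain ⟨w, z, hli, hz, hz'⟩ := exists_coins v μ (l := -l) hell hunit hs'
    refine spread_blocks (hi l) _ _ hX' (card_futW v)
      (lintegral_len v μ _ hm hc' hsm) (m := d - 1) (by omega) w z hli
      (fun i => neg_eq_zero.1 ((hneg _).symm.trans (hz i))) fun eps => ?_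
    intro h0
    refine hz' eps (measure_mono_null (fun b hb => ?_) h0)
    show disp v b = _
    rw [show disp v b = _ from hb, sum_filter]
  obtain ⟨M, hM⟩ := prefix_avoid _ _ ν (hi l) ν' _ _ hR hS
    (hX.mono fun b hb => hb.1.le) (hX.mono fun b hb => hb.2)
  -- the forced pieces
  obtain ⟨a, ha⟩ := l_ne_zero v μ (l := l) hs
  obtain ⟨j, hja⟩ : ∃ j : Fin d, j ≠ a := by
    have : Nontrivial (Fin d) := Fin.nontrivial_iff_two_le.2 (by omega)
    exact exists_ne a
  obtain ⟨s, hs1, hsa⟩ : ∃ s : ℤ, (s = 1 ∨ s = -1) ∧ 0 < s * l a := by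
    rcases lt_or_gt_of_ne ha with h | h
    · exact ⟨-1, Or.inr rfl, by linarith⟩
    · exact ⟨1, Or.inl rfl, by linarith⟩
  obtain ⟨r, hr, hrl⟩ : ∃ r : ℤ, (r = 1 ∨ r = -1) ∧ r * l j ≤ 0 := by
    rcases le_total (l j) 0 with h | h
    · exact ⟨1, Or.inl rfl, by linarith⟩
    · exact ⟨-1, Or.inr rfl, by linarith⟩
  set L := 2 * M + 1 with hL
  obtain ⟨⟨bR, hb1, hb0, hbd, hb⟩, -, -⟩ :=
    exists_axis v μ (l := l) hell hunit hs hs1 hsa (j := a) (r := s) hs1
  obtain ⟨n, g, hg, hhead, hQ⟩ := exists_run v μ l hell hunit hs' hja hs1 hsa hr hrl L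
  have hst : ∀ q, start (fun b => -disp v b) (fun _ => bR) q = -(q • Pi.single a s) := fun q => by
    simp [start, hbd]
  have hheadR : ∀ z ∈ headOcc (fun b => -disp v b) (pastW v) L (fun _ => bR),
      ∃ q : ℕ, z = -((q + 1) • Pi.single a s) := by
    rintro z ⟨q, -, w, hw, rfl⟩
    obtain ⟨i, hi', rfl⟩ := mem_image.1 hw
    rw [hb1, mem_range, Nat.lt_one_iff] at hi'
    subst hi'
    exact ⟨q, by rw [hst, hb0, hbd, add_smul, one_smul]; abel⟩
  have habs : ∀ t : ℤ, (t = 1 ∨ t = -1) → |(L : ℤ) * t| = L := fun t ht => by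
    rcases ht with rfl | rfl <;> simp
  have hM' : (M : ℤ) < L := by omega
  have hpos : ((iid ν).prod (iid ν')) {x | Disjoint (pastOcc v x.1) (futOcc v x.2)} ≠ 0 := by
    refine hM L n (fun _ => bR) g (fun _ _ => hb) hg ?_ ?_ ?_ ?_ ?_ ?_ ?_
    · refine Set.disjoint_left.2 fun z hz hz' => ?_
      obtain ⟨q, rfl⟩ := hheadR z hz
      obtain ⟨q', hq'⟩ := hhead _ hz'
      have := congrFun hq' a
      simp [Pi.single_eq_of_ne hja.symm] at this
      rcases hs1 with rfl | rfl <;> omega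
    · rw [hst, map_neg, hi_nsmul_single]
      have hL0 : (0 : ℤ) < L := by omega
      exact neg_lt_zero.2 (mul_pos hL0 hsa)
    · intro x hx y hy hxy
      obtain ⟨q, rfl⟩ := hheadR x hx
      obtain ⟨q', rfl⟩ := hheadR y hy
      rw [map_neg, map_neg, hi_nsmul_single, hi_nsmul_single, neg_inj] at hxy
      rw [show q + 1 = q' + 1 by exact_mod_cast mul_right_cancel₀ hsa.ne' hxy]
    · rintro x ⟨hx, hx0⟩ y ⟨hy, -⟩ hxy
      obtain ⟨q, rfl⟩ := hhead x hx
      obtain ⟨q', rfl⟩ := hhead y hy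
      rw [hi_nsmul_single] at hxy hx0
      rw [hi_nsmul_single] at hxy
      have hne : r * l j ≠ 0 := fun h0 => by simp [h0] at hx0
      rw [show q = q' by exact_mod_cast mul_right_cancel₀ hne hxy]
    · intro z hz
      obtain ⟨q, rfl⟩ := hhead z hz
      refine ⟨a, ?_⟩
      rw [hst]
      simpa [Pi.single_eq_of_ne hja.symm, habs s hs1] using hM'
    · intro z hz
      obtain ⟨q, rfl⟩ := hheadR z hz
      refine ⟨j, ?_⟩
      rw [hQ]
      simpa [Pi.single_eq_of_ne hja, habs r hr] using hM'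
    · refine ⟨j, ?_⟩
      rw [hQ, hst]
      have : 2 * (M : ℤ) < L := by omega
      simpa [Pi.single_eq_of_ne hja, habs r hr] using this
  -- the avoidance probabilities are summable
  have hmap : (upLaw v μ (-(dot fun j => (l j : ℝ)))).map
      (fun t i => block v (-(dot fun j => (l j : ℝ))) i t) =
      Measure.infinitePi fun _ : ℕ => ν' := by
    rw [← he]; exact map_block v μ _ hs'
  rw [he] at hs'
  have hge := avoidProb_ge v μ _ hs hs' (map_block v μ _ hs) hmap
  have hsum := avoidProb_sum_le v μ _ hs hs'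
  refine ENNReal.inv_ne_top.2 hs' (top_le_iff.1 ?_)
  rw [← ENNReal.tsum_const_eq_top_of_ne_zero (α := ℕ) hpos]
  exact (ENNReal.tsum_le_tsum hge).trans hsum

end Vale.Agent.P147.Speed
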