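import Vale.Agent.P147.Speed.Opposite

/-!
P147: at most one nonzero limiting velocity in dimension at least four.
-/

open MeasureTheory Filter Finset
open scoped ENNReal Topology

namespace Vale.Agent.P147.Speed

open Vale.Agent.P147.Cond Vale.Agent.P147.Dir

variable {d k : ℕ} [NeZero k] (v : Fin k → Site d) (μ : Measure (Row k)) [IsProbabilityMeasure μ]

/-- The walk has velocity `w`. -/
def speed (w : Fin d → ℝ) : Set (ℕ → Fin k) :=
  {t | ∀ j, Tendsto (fun n : ℕ => (pos v t n j : ℝ) / n) atTop (𝓝 (w j))}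

theorem tendsto_div_shift {x y : ℕ → ℝ} {c a : ℝ} (h : ∀ n, x (n + 1) = c + y n) :
    Tendsto (fun n : ℕ => x n / n) atTop (𝓝 a) ↔ Tendsto (fun n : ℕ => y n / n) atTop (𝓝 a) := by
  rw [← tendsto_add_atTop_iff_nat (f := fun n : ℕ => x n / n) 1]
  have h1 : Tendsto (fun n : ℕ => ((n + 1 : ℕ) : ℝ) / n) atTop (𝓝 1) := by
    have := (tendsto_one_div_atTop_nhds_zero_nat (𝕜 := ℝ)).const_add 1
    rw [add_zero] at this
    refine this.congr' ?_
    filter_upwards [eventually_gt_atTop 0] with n hn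
    push_cast
    field_simp
  have h2 : Tendsto (fun n : ℕ => c / (n : ℝ)) atTop (𝓝 0) :=
    tendsto_const_div_atTop_nhds_zero_nat c
  have h1' : Tendsto (fun n : ℕ => (n : ℝ) / ((n + 1 : ℕ) : ℝ)) atTop (𝓝 1) := by
    have := h1.inv₀ one_ne_zero
    rw [inv_one] at this
    exact this.congr fun n => inv_div _ _
  constructor
  · intro hx
    have := (hx.mul h1).sub h2
    rw [mul_one, sub_zero] at this
    refine this.congr' ?_
    filter_upwards [eventually_gt_atTop 0] with n hn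
    rw [h n]
    push_cast
    field_simp
    ring
  · intro hy
    have := (hy.add h2).mul h1'
    rw [add_zero, mul_one] at this
    refine this.congr' ?_
    filter_upwards [eventually_gt_atTop 0] with n hn
    rw [h n]
    push_cast
    field_simp
    ring

theorem speed_invariant (w : Fin d → ℝ) (t : ℕ → Fin k) :
    t ∈ speed v w ↔ (fun i => t (i + 1)) ∈ speed v w := by
  refine forall_congr' fun j => tendsto_div_shift (c := (v (t 0) j : ℝ)) fun n => ?_
  simp [pos, sum_range_succ', add_comm]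

theorem measurableSet_speed (w : Fin d → ℝ) : MeasurableSet (speed v w) := by
  simp only [speed, Set.ofPred_forall]
  refine .iInter fun j => measurableSet_tendsto _ fun n => Measurable.div_const ?_ _
  exact (measurable_of_countable fun x : Site d => (x j : ℝ)).comp (measurable_pos v n)

omit [NeZero k] in
theorem speed_height {t : ℕ → Fin k} {w : Fin d → ℝ} (h : t ∈ speed v w) (l : Fin d → ℝ) :
    Tendsto (fun n : ℕ => dot l (pos v t n) / n) atTop (𝓝 (∑ j, l j * w j)) := by
  refine (tendsto_finsetSum (univ : Finset (Fin d)) fun j _ => (h j).const_mul (l j)).congr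
    fun n => ?_
  show _ = (∑ j, l j * (pos v t n j : ℝ)) / n
  rw [sum_div]
  exact sum_congr rfl fun j _ => by ring

omit [NeZero k] in
theorem speed_up {t : ℕ → Fin k} {w : Fin d → ℝ} (h : t ∈ speed v w) {l : Fin d → ℝ}
    (hl : 0 < ∑ j, l j * w j) : t ∈ up v (dot l) := by
  refine ((speed_height v h l).pos_mul_atTop hl tendsto_natCast_atTop_atTop).congr' ?_
  filter_upwards [eventually_gt_atTop 0] with n hn
  field_simp

/-- On the escape event the velocity is deterministic. -/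
theorem up_sdiff_speed {w : Fin d → ℝ} {l : Fin d → ℝ} (hl : 0 < ∑ j, l j * w j)
    (hw : law v μ (speed v w) ≠ 0) :
    law v μ (up v (dot l)) ≠ 0 ∧ law v μ (up v (dot l) \ speed v w) = 0 := by
  have hsub : speed v w ⊆ up v (dot l) := fun t ht => speed_up v ht hl
  refine ⟨fun h0 => hw (measure_mono_null hsub h0), ?_⟩
  refine (conditional_zero_one v μ (dot l) (measurableSet_speed v w)
    (speed_invariant v w)).resolve_left fun h0 => hw ?_
  rwa [Set.inter_eq_right.2 hsub] at h0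

/-- An integer functional separating two vectors that are not on one ray. -/
theorem exists_separating (v1 v2 : Fin d → ℝ) (h1 : v1 ≠ 0) (h2 : v2 ≠ 0)
    (hray : ∀ c : ℝ, 0 < c → v2 ≠ c • v1) :
    ∃ l : Fin d → ℤ, 0 < ∑ j, (l j : ℝ) * v1 j ∧ ∑ j, (l j : ℝ) * v2 j < 0 := by
  have hpos : ∀ x : Fin d → ℝ, x ≠ 0 → 0 < ∑ j, x j * x j := fun x hx => by
    obtain ⟨j, hj⟩ := Function.ne_iff.1 hx
    exact sum_pos' (fun i _ => mul_self_nonneg _) ⟨j, mem_univ _, mul_self_pos.2 hj⟩
  set a := Real.sqrt (∑ j, v1 j * v1 j) with ha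
  set b := Real.sqrt (∑ j, v2 j * v2 j) with hb
  set c := ∑ j, v1 j * v2 j with hc
  have ha0 : 0 < a := Real.sqrt_pos.2 (hpos v1 h1)
  have hb0 : 0 < b := Real.sqrt_pos.2 (hpos v2 h2)
  have haa : a * a = ∑ j, v1 j * v1 j := Real.mul_self_sqrt (hpos v1 h1).le
  have hbb : b * b = ∑ j, v2 j * v2 j := Real.mul_self_sqrt (hpos v2 h2).le
  set u : Fin d → ℝ := fun j => b * v1 j - a * v2 j
  have hu1 : ∑ j, u j * v1 j = a * (a * b - c) := by
    simp only [u, sub_mul, sum_sub_distrib, mul_assoc, ← mul_sum]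
    rw [← haa, show ∑ j, v2 j * v1 j = c from sum_congr rfl fun j _ => mul_comm _ _]
    ring
  have hu2 : ∑ j, u j * v2 j = -(b * (a * b - c)) := by
    simp only [u, sub_mul, sum_sub_distrib, mul_assoc, ← mul_sum]
    rw [← hbb]
    ring
  have hlt : 0 < a * b - c := by
    by_contra hle
    have hu0 : u ≠ 0 := fun h0 => hray (b / a) (div_pos hb0 ha0) <| funext fun j => by
      have := congrFun h0 j
      simp only [u, Pi.zero_apply, sub_eq_zero] at this
      rw [Pi.smul_apply, smul_eq_mul, div_mul_eq_mul_div, eq_div_iff ha0.ne']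
      linarith
    have e : ∑ j, u j * u j = b * ∑ j, u j * v1 j - a * ∑ j, u j * v2 j := by
      rw [mul_sum, mul_sum, ← sum_sub_distrib]
      exact sum_congr rfl fun j _ => by simp only [u]; ring
    have := hpos u hu0
    rw [e, hu1, hu2] at this
    nlinarith [mul_pos ha0 hb0]
  obtain ⟨N, hN⟩ := exists_nat_gt (max ((∑ j, |v1 j|) / (a * (a * b - c)))
    ((∑ j, |v2 j|) / (b * (a * b - c))))
  refine ⟨fun j => ⌊(N : ℝ) * u j⌋, ?_⟩
  have herr : ∀ x : Fin d → ℝ,
      |∑ j, (⌊(N : ℝ) * u j⌋ : ℝ) * x j - N * ∑ j, u j * x j| ≤ ∑ j, |x j| := fun x => by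
    rw [mul_sum, ← sum_sub_distrib]
    refine (abs_sum_le_sum_abs _ _).trans (sum_le_sum fun j _ => ?_)
    rw [← mul_assoc, ← sub_mul, abs_mul]
    refine mul_le_of_le_one_left (abs_nonneg _) (abs_le.2 ⟨?_, ?_⟩)
    · linarith [Int.lt_floor_add_one ((N : ℝ) * u j)]
    · linarith [Int.floor_le ((N : ℝ) * u j)]
  have e1 := abs_le.1 (herr v1)
  have e2 := abs_le.1 (herr v2)
  have n1 : ∑ j, |v1 j| < N * (a * (a * b - c)) :=
    (div_lt_iff₀ (mul_pos ha0 hlt)).1 ((le_max_left _ _).trans_lt hN)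
  have n2 : ∑ j, |v2 j| < N * (b * (a * b - c)) :=
    (div_lt_iff₀ (mul_pos hb0 hlt)).1 ((le_max_right _ _).trans_lt hN)
  rw [hu1] at e1
  rw [hu2] at e2
  constructor <;> linarith [e1.1, e2.2]

/-- At most one nonzero velocity. -/
theorem velocity_unique (hd : 4 ≤ d) (hell : ∀ i, ∀ᵐ p ∂μ, 0 < (p : Row k).1 i)
    (hunit : ∀ j, (∃ i, v i = Pi.single j 1) ∧ ∃ i, v i = Pi.single j (-1))
    {v1 v2 : Fin d → ℝ} (h1 : v1 ≠ 0) (h2 : v2 ≠ 0) (hp1 : law v μ (speed v v1) ≠ 0)
    (hp2 : law v μ (speed v v2) ≠ 0) : v1 = v2 := by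
  by_contra hne
  by_cases hray : ∃ c : ℝ, 0 < c ∧ v2 = c • v1
  · obtain ⟨c, hc, rfl⟩ := hray
    have hl : 0 < ∑ j, v1 j * v1 j := by
      obtain ⟨j, hj⟩ := Function.ne_iff.1 h1
      exact sum_pos' (fun i _ => mul_self_nonneg _) ⟨j, mem_univ _, mul_self_pos.2 hj⟩
    have hl' : 0 < ∑ j, v1 j * (c • v1) j := by
      simp only [Pi.smul_apply, smul_eq_mul, mul_left_comm _ c, ← mul_sum]
      exact mul_pos hc hl
    obtain ⟨-, hnull⟩ := up_sdiff_speed v μ hl hp1
    refine hp2 (measure_mono_null (fun t ht => ?_) hnull)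
    exact ⟨speed_up v ht hl', fun h' => hne (funext fun j => tendsto_nhds_unique (h' j) (ht j))⟩
  · push Not at hray
    obtain ⟨l, hl1, hl2⟩ := exists_separating v1 v2 h1 h2 hray
    have hl2' : 0 < ∑ j, (((-l) j : ℤ) : ℝ) * v2 j := by
      simpa [neg_mul, sum_neg_distrib] using hl2
    obtain ⟨hup, hnull⟩ := up_sdiff_speed v μ (l := fun j => (l j : ℝ)) hl1 hp1
    obtain ⟨hdn, hnull'⟩ := up_sdiff_speed v μ (l := fun j => (((-l) j : ℤ) : ℝ)) hl2' hp2
    refine no_opposite v μ hd hell hunit l hup hdn hl1 hl2' ?_ ?_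
    · refine measure_mono_null ?_ hnull
      intro t ht
      exact ⟨ht.1, fun h' => ht.2 (speed_height v h' _)⟩
    · refine measure_mono_null ?_ hnull'
      intro t ht
      exact ⟨ht.1, fun h' => ht.2 (speed_height v h' _)⟩

end Vale.Agent.P147.Speed
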