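import Vale.Agent.P147.Dir.Paths

/-!
P147, at most one nonzero velocity: displacement and sites of regeneration blocks, and the sites
occupied by a concatenation of iid pieces.
-/

open MeasureTheory Filter Finset
open scoped ENNReal

namespace Vale.Agent.P147.Speed

open Vale.Agent.P147.Cond Vale.Agent.P147.Dir

variable {d k : ℕ} (v : Fin k → Site d)

/-- Displacement of a block. -/
def disp (b : Blk k) : Site d := bpos v b (blen b)

/-- Sites of a block seen from its start, the endpoint left out. -/
def futW (b : Blk k) : Finset (Site d) := (range (blen b)).image fun j => bpos v b j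

/-- Sites of a block seen from its endpoint, the endpoint left out. -/
def pastW (b : Blk k) : Finset (Site d) :=
  (range (blen b)).image fun j => bpos v b j - disp v b

/-- Sites of the concatenation of the pieces `s i`, with displacements `X` and sites `W`. -/
def Occ {β : Type*} (X : β → Site d) (W : β → Finset (Site d)) (s : ℕ → β) : Set (Site d) :=
  {z | ∃ q, ∃ w ∈ W (s q), (∑ p ∈ range q, X (s p)) + w = z}

/-- Sites behind the tip, read from reversed blocks. -/
def pastOcc (r : ℕ → Blk k) : Set (Site d) := Occ (fun b => -disp v b) (pastW v) r

/-- Sites ahead of the tip. -/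
def futOcc (c : ℕ → Blk k) : Set (Site d) := Occ (disp v) (futW v) c

end Vale.Agent.P147.Speed
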