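import Vale.Agent.P147.Speed.Defs

/-!
P147, at most one nonzero velocity: two independent concatenations of iid pieces, each spread out
laterally and with finitely many sites per height on average, avoid each other with positive
probability when their starting points are far apart.
-/

open MeasureTheory ProbabilityTheory Filter Finset
open scoped ENNReal Topology

namespace Vale.Agent.P147.Speed

open Vale.Agent.P147.Cond

variable {d : ℕ} {β : Type*} [MeasurableSpace β]
  (ν : Measure β) (X : β → Site d) (W : β → Finset (Site d)) (h : Site d →+ ℤ)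

/-- The law of iid pieces. -/
noncomputable abbrev iid : Measure (ℕ → β) := Measure.infinitePi fun _ : ℕ => ν

/-- Start of the `q`-th piece. -/
def start (s : ℕ → β) (q : ℕ) : Site d := ∑ p ∈ range q, X (s p)

/-- Lateral concentration, strictly monotone heights and finitely many sites per piece. -/
def Spread : Prop :=
  (∃ rho : ℕ → ℤ → ℝ≥0∞, ∑' q, ∑' y, rho q y ≠ ⊤ ∧
    ∀ q x, iid ν {s | start X s q = x} ≤ rho q (h x)) ∧
  (∀ᵐ s ∂iid ν, Function.Injective fun q => h (start X s q)) ∧
  ∫⁻ b, ((W b).card : ℝ≥0∞) ∂ν ≠ ⊤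

/-- Number of visits to `z` by the pieces with index at least `K`. -/
noncomputable def visits (K : ℕ) (z : Site d) (s : ℕ → β) : ℝ≥0∞ :=
  ∑' q, ∑ w ∈ W (s (q + K)), if start X s (q + K) + w = z then 1 else 0

/-- Tail of the concentration bound at a height. -/
noncomputable def tailAt (rho : ℕ → ℤ → ℝ≥0∞) (K : ℕ) (y : ℤ) : ℝ≥0∞ := ∑' q, rho (q + K) y

/-- Bound for the expected number of visits at a height. -/
noncomputable def visitBound (rho : ℕ → ℤ → ℝ≥0∞) (K : ℕ) (y : ℤ) : ℝ≥0∞ :=
  ∫⁻ b, ∑ w ∈ W b, tailAt rho K (y - h w) ∂ν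

/-- A piece with small index leaves the box of radius `M`. -/
def nearBad (K M : ℕ) : Set (ℕ → β) :=
  {s | ∃ q < K, ∃ w ∈ W (s q), ∃ i, (M : ℤ) < |(start X s q + w) i|}

variable [Countable β] [MeasurableSingletonClass β] [IsProbabilityMeasure ν]

theorem measurable_start (q : ℕ) : Measurable fun s : ℕ → β => start X s q :=
  Finset.measurable_sum _ fun p _ =>
    (measurable_of_countable X).comp (measurable_pi_apply p)

theorem indep_start (q : ℕ) :
    IndepFun (fun s : ℕ → β => start X s q) (fun s => s q) (iid ν) := by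
  have hi : iIndepFun (fun (i : ℕ) (s : ℕ → β) => s i) (iid ν) :=
    iIndepFun_infinitePi (X := fun _ : ℕ => @id β) fun _ => measurable_id
  have h2 := hi.indepFun_finset (range q) {q}
    (Finset.disjoint_singleton_right.2 notMem_range_self) fun i => measurable_pi_apply i
  have hφ : Measurable fun u : ↥(range q) → β => ∑ p, X (u p) :=
    Finset.measurable_sum _ fun p _ => (measurable_of_countable X).comp (measurable_pi_apply p)
  have hψ : Measurable fun u : ↥({q} : Finset ℕ) → β => u ⟨q, mem_singleton_self q⟩ :=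
    measurable_pi_apply _
  have h3 := h2.comp hφ hψ
  have e : (fun s : ℕ → β => start X s q) =
      (fun u : ↥(range q) → β => ∑ p, X (u p)) ∘ fun s i => s i := by
    funext s
    exact ((Finset.sum_coe_sort (range q) fun p => X (s p))).symm
  rw [e]
  exact h3

/-- A piece is independent of the place where it starts. -/
theorem lintegral_split (q : ℕ) (g : Site d → β → ℝ≥0∞) :
    ∫⁻ s, g (start X s q) (s q) ∂iid ν = ∫⁻ b, ∫⁻ s, g (start X s q) b ∂iid ν ∂ν := by
  have hm := measurable_start X q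
  have hg : Measurable fun x : Site d × β => g x.1 x.2 := measurable_of_countable _
  have hmap := (indepFun_iff_map_prod_eq_prod_map_map hm.aemeasurable
    (measurable_pi_apply q).aemeasurable).1 (indep_start ν X q)
  rw [show ((iid ν).map fun s => s q) = ν from Measure.infinitePi_map_eval _ q] at hmap
  have : IsProbabilityMeasure ((iid ν).map fun s => start X s q) :=
    Measure.isProbabilityMeasure_map hm.aemeasurable
  calc ∫⁻ s, g (start X s q) (s q) ∂iid ν
      = ∫⁻ x : Site d × β, g x.1 x.2 ∂(iid ν).map fun s => (start X s q, s q) :=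
        (lintegral_map hg (hm.prodMk (measurable_pi_apply q))).symm
    _ = ∫⁻ b, ∫⁻ x, g x b ∂(iid ν).map (fun s => start X s q) ∂ν := by
        rw [hmap, lintegral_prod_symm _ hg.aemeasurable]
    _ = _ := lintegral_congr fun b => lintegral_map (measurable_of_countable _) hm

theorem measurable_visits (K : ℕ) (z : Site d) : Measurable (visits X W K z) :=
  Measurable.ennreal_tsum fun q =>
    (measurable_of_countable fun x : Site d × β =>
      ∑ w ∈ W x.2, if x.1 + w = z then (1 : ℝ≥0∞) else 0).comp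
      ((measurable_start X (q + K)).prodMk (measurable_pi_apply (q + K)))

theorem lintegral_visits_le {rho : ℕ → ℤ → ℝ≥0∞}
    (hrho : ∀ q x, iid ν {s | start X s q = x} ≤ rho q (h x)) (K : ℕ) (z : Site d) :
    ∫⁻ s, visits X W K z s ∂iid ν ≤ visitBound ν W h rho K (h z) := by
  have hterm : ∀ q, ∫⁻ s, (∑ w ∈ W (s (q + K)),
      if start X s (q + K) + w = z then 1 else 0) ∂iid ν ≤
      ∫⁻ b, ∑ w ∈ W b, rho (q + K) (h z - h w) ∂ν := fun q => by
    rw [lintegral_split ν X (q + K) fun x b => ∑ w ∈ W b, if x + w = z then 1 else 0]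
    refine lintegral_mono fun b => ?_
    have hmw : ∀ w, Measurable fun s : ℕ → β =>
        if start X s (q + K) + w = z then (1 : ℝ≥0∞) else 0 := fun w =>
      (measurable_of_countable fun x : Site d => if x + w = z then (1 : ℝ≥0∞) else 0).comp
        (measurable_start X (q + K))
    rw [lintegral_finsetSum' _ fun w _ => (hmw w).aemeasurable]
    refine sum_le_sum fun w _ => ?_
    have hs : MeasurableSet {s : ℕ → β | start X s (q + K) = z - w} :=
      measurable_start X (q + K) (measurableSet_singleton _)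
    calc ∫⁻ s, (if start X s (q + K) + w = z then 1 else 0) ∂iid ν
        = ∫⁻ s, {s : ℕ → β | start X s (q + K) = z - w}.indicator 1 s ∂iid ν :=
          lintegral_congr fun s => by simp [Set.indicator_apply, eq_sub_iff_add_eq]
      _ ≤ rho (q + K) (h (z - w)) := by
          rw [lintegral_indicator_one hs]; exact hrho _ _
      _ = _ := by rw [map_sub]
  calc ∫⁻ s, visits X W K z s ∂iid ν
      = ∑' q, ∫⁻ s, (∑ w ∈ W (s (q + K)),
          if start X s (q + K) + w = z then 1 else 0) ∂iid ν :=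
        lintegral_tsum fun q => ((measurable_of_countable fun x : Site d × β =>
          ∑ w ∈ W x.2, if x.1 + w = z then (1 : ℝ≥0∞) else 0).comp
          ((measurable_start X (q + K)).prodMk (measurable_pi_apply (q + K)))).aemeasurable
    _ ≤ ∑' q, ∫⁻ b, ∑ w ∈ W b, rho (q + K) (h z - h w) ∂ν := ENNReal.tsum_le_tsum hterm
    _ = visitBound ν W h rho K (h z) := by
        rw [visitBound, ← lintegral_tsum fun q => (measurable_of_countable _).aemeasurable]
        refine lintegral_congr fun b => ?_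
        rw [Summable.tsum_finsetSum fun w _ => ENNReal.summable]
        rfl

theorem tsum_visitBound_le (rho : ℕ → ℤ → ℝ≥0∞) (K : ℕ) :
    ∑' y, visitBound ν W h rho K y ≤
      (∫⁻ b, ((W b).card : ℝ≥0∞) ∂ν) * ∑' q, ∑' y, rho (q + K) y := by
  rw [← lintegral_mul_const _ (measurable_of_countable _)]
  simp only [visitBound]
  rw [← lintegral_tsum fun y => (measurable_of_countable _).aemeasurable]
  refine lintegral_mono fun b => ?_
  rw [Summable.tsum_finsetSum fun w _ => ENNReal.summable]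
  refine (sum_le_card_nsmul _ _ (∑' q, ∑' y, rho (q + K) y) fun w _ => ?_).trans_eq
    (nsmul_eq_mul _ _)
  rw [ENNReal.tsum_comm (f := fun q y => rho (q + K) y)]
  exact ((Equiv.subRight (h w)).tsum_eq fun y => tailAt rho K y).le

theorem visitBound_subset_le {T : Set (Site d)} (hT : Set.InjOn h T) (rho : ℕ → ℤ → ℝ≥0∞)
    (K : ℕ) :
    ∑' z : T, visitBound ν W h rho K (h z) ≤
      (∫⁻ b, ((W b).card : ℝ≥0∞) ∂ν) * ∑' q, ∑' y, rho (q + K) y :=
  (ENNReal.tsum_comp_le_tsum_of_injective (f := fun z : T => h z)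
    (fun a b hab => Subtype.ext (hT a.2 b.2 hab)) _).trans (tsum_visitBound_le ν W h rho K)

/-- Pieces with a large index rarely meet a set meeting each height once. -/
theorem far_subset {rho : ℕ → ℤ → ℝ≥0∞}
    (hrho : ∀ q x, iid ν {s | start X s q = x} ≤ rho q (h x)) {T : Set (Site d)}
    (hT : Set.InjOn h T) (K : ℕ) :
    iid ν {s | ∃ q, K ≤ q ∧ ∃ w ∈ W (s q), start X s q + w ∈ T} ≤
      (∫⁻ b, ((W b).card : ℝ≥0∞) ∂ν) * ∑' q, ∑' y, rho (q + K) y := by
  refine le_trans ?_ (visitBound_subset_le ν W h hT rho K)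
  refine le_trans ((measure_mono ?_).trans (measure_iUnion_le fun z : T =>
    {s | (1 : ℝ≥0∞) ≤ visits X W K z s})) (ENNReal.tsum_le_tsum fun z => ?_)
  · rintro s ⟨q, hq, w, hw, hmem⟩
    obtain ⟨r, rfl⟩ := Nat.exists_eq_add_of_le hq
    rw [add_comm K r] at hw hmem
    refine Set.mem_iUnion.2 ⟨⟨_, hmem⟩, ?_⟩
    refine le_trans ?_ (ENNReal.le_tsum r)
    refine le_trans ?_ (single_le_sum (fun _ _ => zero_le) hw)
    simp
  · refine le_trans ?_ (lintegral_visits_le ν X W h hrho K z)
    have := mul_meas_ge_le_lintegral₀ (μ := iid ν)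
      (measurable_visits X W K z.1).aemeasurable 1
    rwa [one_mul] at this

variable {β' : Type*} [MeasurableSpace β'] [Countable β'] [MeasurableSingletonClass β']
  (ν' : Measure β') [IsProbabilityMeasure ν'] (X' : β' → Site d) (W' : β' → Finset (Site d))

/-- Visits of the first concatenation to the sites of the `p`-th piece of the second one. -/
noncomputable def meetAt (o : Site d) (K p : ℕ) (x : (ℕ → β) × (ℕ → β')) : ℝ≥0∞ :=
  ∑ w' ∈ W' (x.2 p), visits X W K (o + (start X' x.2 p + w')) x.1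

theorem measurable_meetAt (o : Site d) (K p : ℕ) : Measurable (meetAt X W X' W' o K p) := by
  let G : (ℕ → β) × (Site d × β') → ℝ≥0∞ := fun y =>
    ∑ w' ∈ W' y.2.2, visits X W K (o + (y.2.1 + w')) y.1
  have hG : Measurable G := by
    refine measurable_from_prod_countable_left fun y => ?_
    exact Finset.measurable_sum (W' y.2) fun w' _ => measurable_visits X W K (o + (y.1 + w'))
  let L : (ℕ → β) × (ℕ → β') → (ℕ → β) × (Site d × β') :=
    fun x => (x.1, (start X' x.2 p, x.2 p))
  have hL : Measurable L := measurable_fst.prodMk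
    (((measurable_start X' p).comp measurable_snd).prodMk
      ((measurable_pi_apply p).comp measurable_snd))
  have e : meetAt X W X' W' o K p = fun x => G (L x) := by funext x; rfl
  rw [e]
  exact Measurable.comp (g := G) (f := L) hG hL

theorem measurable_meet (o : Site d) (K : ℕ) :
    Measurable fun x => ∑' p, meetAt X W X' W' o K p x :=
  Measurable.ennreal_tsum fun p => measurable_meetAt X W X' W' o K p

omit [Countable β] [MeasurableSingletonClass β] in
theorem lintegral_heights_le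
    (hinj : ∀ᵐ c ∂iid ν', Function.Injective fun q => h (start X' c q)) (a : ℤ) (ψ : ℤ → ℝ≥0∞) :
    ∫⁻ c, ∑' p, ∑ w' ∈ W' (c p), ψ (a + (h (start X' c p) + h w')) ∂iid ν' ≤
      (∫⁻ b, ((W' b).card : ℝ≥0∞) ∂ν') * ∑' y, ψ y := by
  calc ∫⁻ c, ∑' p, ∑ w' ∈ W' (c p), ψ (a + (h (start X' c p) + h w')) ∂iid ν'
    _ = ∫⁻ b, ∑ w' ∈ W' b, ∫⁻ c, ∑' p, ψ (a + (h (start X' c p) + h w')) ∂iid ν' ∂ν' := by
        have hg : ∀ (p : ℕ) (w' : Site d), Measurable fun c : ℕ → β' =>
            ψ (a + (h (start X' c p) + h w')) := fun p w' =>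
          (measurable_of_countable fun x : Site d => ψ (a + (h x + h w'))).comp
            (measurable_start X' p)
        have hgs : ∀ p, Measurable fun c : ℕ → β' =>
            ∑ w' ∈ W' (c p), ψ (a + (h (start X' c p) + h w')) := fun p =>
          (measurable_of_countable fun x : Site d × β' =>
            ∑ w' ∈ W' x.2, ψ (a + (h x.1 + h w'))).comp
            ((measurable_start X' p).prodMk (measurable_pi_apply p))
        rw [lintegral_tsum fun p => (hgs p).aemeasurable]
        simp only [lintegral_split ν' X' _ fun x b => ∑ w' ∈ W' b, ψ (a + (h x + h w'))]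
        rw [← lintegral_tsum fun p => (measurable_of_countable _).aemeasurable]
        refine lintegral_congr fun b => ?_
        simp only [lintegral_finsetSum' _ fun w' _ => (hg _ w').aemeasurable]
        rw [Summable.tsum_finsetSum fun w' _ => ENNReal.summable]
        exact sum_congr rfl fun w' _ => (lintegral_tsum fun p => (hg p w').aemeasurable).symm
    _ ≤ ∫⁻ b, ∑ _w' ∈ W' b, ∑' y, ψ y ∂ν' := by
        refine lintegral_mono fun b => sum_le_sum fun w' _ => ?_
        refine (lintegral_mono_ae ?_).trans_eq (by rw [lintegral_const, measure_univ, mul_one])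
        filter_upwards [hinj] with c hc
        exact ENNReal.tsum_comp_le_tsum_of_injective (f := fun p => a + (h (start X' c p) + h w'))
          (fun p p' hpp => hc (by simpa using hpp)) ψ
    _ = _ := by
        simp only [sum_const, nsmul_eq_mul]
        rw [lintegral_mul_const _ (measurable_of_countable _)]

/-- Pieces with a large index rarely meet an independent concatenation. -/
theorem far_occ {rho : ℕ → ℤ → ℝ≥0∞}
    (hrho : ∀ q x, iid ν {s | start X s q = x} ≤ rho q (h x))
    (hinj : ∀ᵐ c ∂iid ν', Function.Injective fun q => h (start X' c q)) (o : Site d) (K : ℕ) :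
    ((iid ν).prod (iid ν')) {x | ∃ q, K ≤ q ∧ ∃ w ∈ W (x.1 q), ∃ z ∈ Occ X' W' x.2,
        start X x.1 q + w = o + z} ≤
      (∫⁻ b, ((W' b).card : ℝ≥0∞) ∂ν') *
        ((∫⁻ b, ((W b).card : ℝ≥0∞) ∂ν) * ∑' q, ∑' y, rho (q + K) y) := by
  set ψ := visitBound ν W h rho K
  set F : (ℕ → β) × (ℕ → β') → ℝ≥0∞ := fun x => ∑' p, meetAt X W X' W' o K p x with hFd
  have hF : Measurable F := measurable_meet X W X' W' o K
  calc ((iid ν).prod (iid ν')) {x | ∃ q, K ≤ q ∧ ∃ w ∈ W (x.1 q), ∃ z ∈ Occ X' W' x.2,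
        start X x.1 q + w = o + z}
      ≤ ((iid ν).prod (iid ν')) {x | 1 ≤ F x} := by
        refine measure_mono ?_
        rintro x ⟨q, hq, w, hw, z, ⟨p, w', hw', rfl⟩, he⟩
        obtain ⟨r, rfl⟩ := Nat.exists_eq_add_of_le hq
        rw [add_comm K r] at hw he
        refine le_trans ?_ (ENNReal.le_tsum p)
        refine le_trans ?_ (single_le_sum (fun _ _ => zero_le) hw')
        refine le_trans ?_ (ENNReal.le_tsum r)
        refine le_trans ?_ (single_le_sum (fun _ _ => zero_le) hw)
        rw [if_pos]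
        exact he
    _ ≤ ∫⁻ x, F x ∂(iid ν).prod (iid ν') := by
        have := mul_meas_ge_le_lintegral₀ (μ := (iid ν).prod (iid ν')) hF.aemeasurable 1
        rwa [one_mul] at this
    _ = ∫⁻ c, ∫⁻ s, F (s, c) ∂iid ν ∂iid ν' := lintegral_prod_symm _ hF.aemeasurable
    _ ≤ ∫⁻ c, ∑' p, ∑ w' ∈ W' (c p), ψ (h o + (h (start X' c p) + h w')) ∂iid ν' := by
        refine lintegral_mono fun c => ?_
        show ∫⁻ s, ∑' p, ∑ w' ∈ W' (c p), visits X W K (o + (start X' c p + w')) s ∂iid ν ≤ _
        rw [lintegral_tsum fun p => (Finset.measurable_sum _ fun w' _ =>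
          measurable_visits X W K _).aemeasurable]
        refine ENNReal.tsum_le_tsum fun p => ?_
        rw [lintegral_finsetSum' _ fun w' _ => (measurable_visits X W K _).aemeasurable]
        refine sum_le_sum fun w' _ => ?_
        simpa [map_add] using lintegral_visits_le ν X W h hrho K (o + (start X' c p + w'))
    _ ≤ (∫⁻ b, ((W' b).card : ℝ≥0∞) ∂ν') * ∑' y, ψ y := lintegral_heights_le h ν' X' W' hinj (h o) ψ
    _ ≤ _ := mul_le_mul_right (tsum_visitBound_le ν W h rho K) _

theorem tendsto_nearBad (K : ℕ) :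
    Tendsto (fun M => iid ν (nearBad X W K M)) atTop (𝓝 0) := by
  have hm : ∀ M, MeasurableSet (nearBad X W K M) := fun M => by
    have : nearBad X W K M = ⋃ (q : ℕ) (_ : q < K),
        (fun s : ℕ → β => (start X s q, s q)) ⁻¹'
          {x | ∃ w ∈ W x.2, ∃ i, (M : ℤ) < |(x.1 + w) i|} := by
      ext s
      simp [nearBad]
    rw [this]
    exact .iUnion fun q => .iUnion fun _ =>
      ((measurable_start X q).prodMk (measurable_pi_apply q)) (Set.to_countable _).measurableSet
  have hanti : Antitone (nearBad X W K) := by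
    rintro M M' hM s ⟨q, hq, w, hw, i, hi⟩
    exact ⟨q, hq, w, hw, i, lt_of_le_of_lt (by exact_mod_cast hM) hi⟩
  have hempty : ⋂ M, nearBad X W K M = ∅ := by
    refine Set.eq_empty_iff_forall_notMem.2 fun s hs => ?_
    set M₀ := (range K).sup fun q => (W (s q)).sup fun w =>
      (univ : Finset (Fin d)).sup fun i => ((start X s q + w) i).natAbs
    obtain ⟨q, hq, w, hw, i, hi⟩ := Set.mem_iInter.1 hs M₀
    have h1 : ((start X s q + w) i).natAbs ≤ M₀ :=
      le_trans (le_trans (le_sup (f := fun i => ((start X s q + w) i).natAbs) (mem_univ i))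
        (le_sup (f := fun w => (univ : Finset (Fin d)).sup fun i =>
          ((start X s q + w) i).natAbs) hw))
        (le_sup (f := fun q => (W (s q)).sup fun w => (univ : Finset (Fin d)).sup fun i =>
          ((start X s q + w) i).natAbs) (mem_range.2 hq))
    rw [Int.abs_eq_natAbs] at hi
    exact absurd (Int.ofNat_lt.1 hi) (not_lt.2 h1)
  have := tendsto_measure_iInter_atTop (μ := iid ν) (fun M => (hm M).nullMeasurableSet) hanti
    ⟨0, measure_ne_top _ _⟩
  rw [hempty, measure_empty] at this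
  exact this

/-- From far apart starting points, two spread out concatenations miss each other, and miss given
sets that meet each height once, with positive probability. -/
theorem free_avoid (hR : Spread ν X W h) (hS : Spread ν' X' W' h) :
    ∃ M : ℕ, ∀ (P Q : Site d) (F G : Set (Site d)), Set.InjOn h F → Set.InjOn h G →
      (∀ z ∈ G, ∃ i, (M : ℤ) < |z i - P i|) → (∀ z ∈ F, ∃ i, (M : ℤ) < |z i - Q i|) →
      (∃ i, 2 * (M : ℤ) < |P i - Q i|) →
      ((iid ν).prod (iid ν')) {x | (∀ z ∈ Occ X W x.1, P + z ∉ G) ∧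
        (∀ z ∈ Occ X' W' x.2, Q + z ∉ F) ∧
        ∀ z ∈ Occ X W x.1, ∀ z' ∈ Occ X' W' x.2, P + z ≠ Q + z'} ≠ 0 := by
  classical
  obtain ⟨⟨rho, hsum, hrho⟩, hinj, hN⟩ := hR
  obtain ⟨⟨rho', hsum', hrho'⟩, hinj', hN'⟩ := hS
  set N := ∫⁻ b, ((W b).card : ℝ≥0∞) ∂ν
  set N' := ∫⁻ b, ((W' b).card : ℝ≥0∞) ∂ν'
  set τ := fun (r : ℕ → ℤ → ℝ≥0∞) (K : ℕ) => ∑' q, ∑' y, r (q + K) y
  have hτ : Tendsto (τ rho) atTop (𝓝 0) :=
    ENNReal.tendsto_sum_nat_add (fun q => ∑' y, rho q y) hsum
  have hτ' : Tendsto (τ rho') atTop (𝓝 0) :=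
    ENNReal.tendsto_sum_nat_add (fun q => ∑' y, rho' q y) hsum'
  have h8 : (0 : ℝ≥0∞) < 1 / 8 := ENNReal.div_pos one_ne_zero (by norm_num)
  have hmul : ∀ {f : ℕ → ℝ≥0∞} {c : ℝ≥0∞}, Tendsto f atTop (𝓝 0) → c ≠ ⊤ →
      ∀ᶠ K in atTop, c * f K < 1 / 8 := fun hf hc => by
    have := ENNReal.Tendsto.const_mul hf (Or.inr hc)
    rw [mul_zero] at this
    exact this.eventually_lt_const h8
  obtain ⟨K, hK1, hK2, hK3, hK4⟩ := ((hmul hτ hN).and ((hmul hτ' hN').and
    ((hmul hτ (ENNReal.mul_ne_top hN' hN)).and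
      (hmul hτ' (ENNReal.mul_ne_top hN hN'))))).exists
  obtain ⟨M, hM1, hM2⟩ := (((tendsto_nearBad ν X W K).eventually_lt_const h8).and
    ((tendsto_nearBad ν' X' W' K).eventually_lt_const h8)).exists
  refine ⟨M, fun P Q F G hF hG hPG hQF hPQ => ?_⟩
  set μ2 := (iid ν).prod (iid ν')
  set A1 : Set (ℕ → β) := {s | ∃ q, K ≤ q ∧ ∃ w ∈ W (s q), start X s q + w ∈ (P + ·) ⁻¹' G}
  set A2 : Set (ℕ → β') := {s | ∃ q, K ≤ q ∧ ∃ w ∈ W' (s q), start X' s q + w ∈ (Q + ·) ⁻¹' F}
  set A3 : Set ((ℕ → β) × (ℕ → β')) := {x | ∃ q, K ≤ q ∧ ∃ w ∈ W (x.1 q),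
    ∃ z ∈ Occ X' W' x.2, start X x.1 q + w = (Q - P) + z}
  set A4 : Set ((ℕ → β') × (ℕ → β)) := {x | ∃ q, K ≤ q ∧ ∃ w ∈ W' (x.1 q),
    ∃ z ∈ Occ X W x.2, start X' x.1 q + w = (P - Q) + z}
  have hinjP : ∀ (c : Site d) {U : Set (Site d)}, Set.InjOn h U →
      Set.InjOn h ((c + ·) ⁻¹' U) := fun c U hU a ha b hb hab =>
    add_left_cancel (hU ha hb (by rw [map_add, map_add, hab]))
  have b1 : μ2 (Prod.fst ⁻¹' A1) ≤ N * τ rho K := by
    rw [← Set.prod_univ, Measure.prod_prod, measure_univ, mul_one]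
    exact far_subset ν X W h hrho (hinjP P hG) K
  have b2 : μ2 (Prod.snd ⁻¹' A2) ≤ N' * τ rho' K := by
    rw [← Set.univ_prod, Measure.prod_prod, measure_univ, one_mul]
    exact far_subset ν' X' W' h hrho' (hinjP Q hF) K
  have b3 : μ2 A3 ≤ N' * N * τ rho K :=
    (far_occ ν X W h ν' X' W' hrho hinj' (Q - P) K).trans_eq (mul_assoc _ _ _).symm
  have b4 : μ2 (Prod.swap ⁻¹' A4) ≤ N * N' * τ rho' K := by
    have e := Measure.prod_swap (μ := iid ν') (ν := iid ν)
    calc μ2 (Prod.swap ⁻¹' A4) ≤ (μ2.map Prod.swap) A4 :=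
          Measure.le_map_apply measurable_swap.aemeasurable A4
      _ = ((iid ν').prod (iid ν)) A4 := by rw [Measure.prod_swap]
      _ ≤ _ := (far_occ ν' X' W' h ν X W hrho' hinj (P - Q) K).trans_eq (mul_assoc _ _ _).symm
  have b5 : μ2 (Prod.fst ⁻¹' nearBad X W K M) ≤ iid ν (nearBad X W K M) := by
    rw [← Set.prod_univ, Measure.prod_prod, measure_univ, mul_one]
  have b6 : μ2 (Prod.snd ⁻¹' nearBad X' W' K M) ≤ iid ν' (nearBad X' W' K M) := by
    rw [← Set.univ_prod, Measure.prod_prod, measure_univ, one_mul]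
  set U := Prod.fst ⁻¹' A1 ∪ Prod.snd ⁻¹' A2 ∪ A3 ∪ Prod.swap ⁻¹' A4 ∪
    Prod.fst ⁻¹' nearBad X W K M ∪ Prod.snd ⁻¹' nearBad X' W' K M
  have hU : μ2 U < 1 := by
    calc μ2 U ≤ μ2 (Prod.fst ⁻¹' A1) + μ2 (Prod.snd ⁻¹' A2) + μ2 A3 +
          μ2 (Prod.swap ⁻¹' A4) + μ2 (Prod.fst ⁻¹' nearBad X W K M) +
          μ2 (Prod.snd ⁻¹' nearBad X' W' K M) := by
          refine (measure_union_le _ _).trans (add_le_add ?_ le_rfl)
          refine (measure_union_le _ _).trans (add_le_add ?_ le_rfl)
          refine (measure_union_le _ _).trans (add_le_add ?_ le_rfl)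
          exact (measure_union_le _ _).trans (add_le_add (measure_union_le _ _) le_rfl)
      _ ≤ 1 / 8 + 1 / 8 + 1 / 8 + 1 / 8 + 1 / 8 + 1 / 8 := by
          gcongr
          · exact b1.trans hK1.le
          · exact b2.trans hK2.le
          · exact b3.trans hK3.le
          · exact b4.trans hK4.le
          · exact b5.trans hM1.le
          · exact b6.trans hM2.le
      _ < 1 := by
          rw [← ENNReal.add_div, ← ENNReal.add_div, ← ENNReal.add_div, ← ENNReal.add_div,
            ← ENNReal.add_div, ENNReal.div_lt_iff (Or.inl (by norm_num)) (Or.inl (by norm_num))]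
          norm_num
  intro h0
  refine hU.not_ge ?_
  rw [← measure_univ (μ := μ2)]
  refine (measure_mono (Set.subset_univ _ |>.trans ?_)).trans
    ((measure_union_le _ U).trans_eq (by rw [h0, zero_add]))
  intro x _
  by_contra hx
  simp only [Set.mem_union, not_or, U] at hx
  obtain ⟨hgood, ⟨⟨⟨⟨hA1, hA2⟩, hA3⟩, hA4⟩, hn1⟩, hn2⟩ := hx
  have near1 : ∀ q, q < K → ∀ w ∈ W (x.1 q), ∀ i, |(start X x.1 q + w) i| ≤ M :=
    fun q hq w hw i => not_lt.1 fun hlt => hn1 ⟨q, hq, w, hw, i, hlt⟩
  have near2 : ∀ q, q < K → ∀ w ∈ W' (x.2 q), ∀ i, |(start X' x.2 q + w) i| ≤ M :=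
    fun q hq w hw i => not_lt.1 fun hlt => hn2 ⟨q, hq, w, hw, i, hlt⟩
  refine hgood ⟨?_, ?_, ?_⟩
  · rintro z ⟨q, w, hw, rfl⟩ hz
    rcases le_or_gt K q with hq | hq
    · exact hA1 ⟨q, hq, w, hw, hz⟩
    · obtain ⟨i, hi⟩ := hPG _ hz
      simp only [Pi.add_apply, add_sub_cancel_left] at hi
      exact absurd (near1 q hq w hw i) (not_le.2 hi)
  · rintro z ⟨q, w, hw, rfl⟩ hz
    rcases le_or_gt K q with hq | hq
    · exact hA2 ⟨q, hq, w, hw, hz⟩
    · obtain ⟨i, hi⟩ := hQF _ hz
      simp only [Pi.add_apply, add_sub_cancel_left] at hi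
      exact absurd (near2 q hq w hw i) (not_le.2 hi)
  · rintro z ⟨q, w, hw, rfl⟩ z' ⟨q', w', hw', rfl⟩ he
    rcases le_or_gt K q with hq | hq
    · refine hA3 ⟨q, hq, w, hw, _, ⟨q', w', hw', rfl⟩, ?_⟩
      rw [sub_add_eq_add_sub, eq_sub_iff_add_eq, ← he, add_comm]
      rfl
    rcases le_or_gt K q' with hq' | hq'
    · refine hA4 ⟨q', hq', w', hw', _, ⟨q, w, hw, rfl⟩, ?_⟩
      show start X' x.2 q' + w' = P - Q + (start X x.1 q + w)
      rw [sub_add_eq_add_sub, eq_sub_iff_add_eq, start, start, he, add_comm]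
    obtain ⟨i, hi⟩ := hPQ
    have e := congrFun he i
    have e1 := abs_le.1 (near1 q hq w hw i)
    have e2 := abs_le.1 (near2 q' hq' w' hw' i)
    simp only [start, Pi.add_apply] at e e1 e2
    rcases lt_abs.1 hi with hi | hi <;> linarith

end Vale.Agent.P147.Speed
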