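import Vale.Agent.P147.Speed.Core

/-!
P147, at most one nonzero velocity: forced first pieces separate two iid concatenations, so they
are disjoint with positive probability.
-/

open MeasureTheory Filter Finset
open scoped ENNReal Topology

namespace Vale.Agent.P147.Speed

open Vale.Agent.P147.Cond

variable {β : Type*} [MeasurableSpace β] [MeasurableSingletonClass β]

/-- The pieces after the first `n`. -/
def after (n : ℕ) (s : ℕ → β) : ℕ → β := fun i => s (n + i)

/-- The sequences starting with the pieces `f 0, …, f (n - 1)`. -/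
def begins (n : ℕ) (f : ℕ → β) : Set (ℕ → β) := {s | ∀ i < n, s i = f i}

theorem measurable_after (n : ℕ) : Measurable (after n : (ℕ → β) → ℕ → β) :=
  measurable_pi_lambda _ fun i => measurable_pi_apply (n + i)

theorem measurableSet_begins (n : ℕ) (f : ℕ → β) : MeasurableSet (begins n f) := by
  simp only [begins, Set.ofPred_forall]
  exact .iInter fun i => .iInter fun _ => measurable_pi_apply i (measurableSet_singleton _)

theorem iid_begins (ν : Measure β) [IsProbabilityMeasure ν] (n : ℕ) (f : ℕ → β) :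
    iid ν (begins n f) = ∏ i ∈ range n, ν {f i} := by
  have e : begins n f = Set.pi (range n : Finset ℕ) fun i => {f i} := by
    ext s; simp [begins, Set.pi]
  rw [e, Measure.infinitePi_pi _ fun i _ => measurableSet_singleton _]

/-- After forced first pieces the rest has the original law. -/
theorem map_after (ν : Measure β) [IsProbabilityMeasure ν] (n : ℕ) (f : ℕ → β)
    (hf : ∀ i < n, ν {f i} ≠ 0) :
    ((iid ν).restrict (begins n f)).map (after n) = iid ν (begins n f) • iid ν := by
  set c := iid ν (begins n f) with hc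
  have hc0 : c ≠ 0 := by
    rw [hc, iid_begins, prod_ne_zero_iff]
    exact fun i hi => hf i (mem_range.1 hi)
  have hct : c ≠ ⊤ := measure_ne_top _ _
  have key : c⁻¹ • ((iid ν).restrict (begins n f)).map (after n) = iid ν := by
    refine Measure.eq_infinitePi _ fun S t ht => ?_
    rw [Measure.smul_apply,
      Measure.map_apply (measurable_after n) (.pi S.countable_toSet fun i _ => ht i),
      Measure.restrict_apply (measurable_after n (.pi S.countable_toSet fun i _ => ht i)),
      smul_eq_mul]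
    have e : after n ⁻¹' Set.pi S t ∩ begins n f =
        Set.pi ((range n ∪ S.image (n + ·) : Finset ℕ) : Set ℕ)
          (fun i => if i < n then {f i} else t (i - n)) := by
      ext u
      simp only [after, begins, Set.mem_inter_iff, Set.mem_preimage, Set.mem_pi, mem_coe, mem_union,
        mem_range, mem_image, Set.mem_ofPred_eq]
      constructor
      · rintro ⟨h1, h2⟩ i (hi | ⟨j, hj, rfl⟩)
        · rw [if_pos hi]; exact h2 i hi
        · rw [if_neg (by omega), Nat.add_sub_cancel_left]; exact h1 j hj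
      · intro h
        refine ⟨fun j hj => ?_, fun i hi => ?_⟩
        · have := h (n + j) (Or.inr ⟨j, hj, rfl⟩)
          rwa [if_neg (by omega), Nat.add_sub_cancel_left] at this
        · have := h i (Or.inl hi)
          rwa [if_pos hi] at this
    rw [e, Measure.infinitePi_pi _ fun i _ => by
        split_ifs; exacts [measurableSet_singleton _, ht _],
      prod_union, prod_image (fun a _ b _ h => by simpa using h)]
    · have e1 : ∏ i ∈ range n, ν (if i < n then {f i} else t (i - n)) = c := by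
        rw [hc, iid_begins]
        exact prod_congr rfl fun i hi => by rw [if_pos (mem_range.1 hi)]
      have e2 : ∏ i ∈ S, ν (if n + i < n then {f (n + i)} else t (n + i - n)) =
          ∏ i ∈ S, ν (t i) :=
        prod_congr rfl fun i _ => by rw [if_neg (by omega), Nat.add_sub_cancel_left]
      rw [e1, e2, ← mul_assoc, ENNReal.inv_mul_cancel hc0 hct, one_mul]
    · simp only [disjoint_left, mem_range, mem_image]
      rintro a ha ⟨b, _, rfl⟩
      omega
  conv_rhs => rw [← key, smul_smul, ENNReal.mul_inv_cancel hc0 hct, one_smul]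

variable {d : ℕ} (X : β → Site d) (W : β → Finset (Site d))

/-- Sites of the first `n` pieces. -/
def headOcc (n : ℕ) (f : ℕ → β) : Set (Site d) :=
  {z | ∃ q < n, ∃ w ∈ W (f q), start X f q + w = z}

omit [MeasurableSpace β] [MeasurableSingletonClass β] in
theorem occ_split {n : ℕ} {f s : ℕ → β} (hs : s ∈ begins n f) {z : Site d}
    (hz : z ∈ Occ X W s) :
    z ∈ headOcc X W n f ∨ ∃ z' ∈ Occ X W (after n s), start X f n + z' = z := by
  obtain ⟨q, w, hw, rfl⟩ := hz
  have hq0 : ∀ p ≤ n, ∑ i ∈ range p, X (s i) = start X f p := fun p hp =>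
    sum_congr rfl fun i hi => by rw [hs i ((mem_range.1 hi).trans_le hp)]
  rcases lt_or_ge q n with hq | hq
  · rw [hq0 q hq.le]
    rw [hs q hq] at hw
    exact Or.inl ⟨q, hq, w, hw, rfl⟩
  · obtain ⟨r, rfl⟩ := Nat.exists_eq_add_of_le hq
    refine Or.inr ⟨_, ⟨r, w, hw, rfl⟩, ?_⟩
    rw [sum_range_add, hq0 n le_rfl, add_assoc]
    rfl

variable [Countable β]

theorem measurableSet_mem_occ (z : Site d) : MeasurableSet {s : ℕ → β | z ∈ Occ X W s} := by
  have e : {s : ℕ → β | z ∈ Occ X W s} = ⋃ q : ℕ,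
      (fun s : ℕ → β => (start X s q, s q)) ⁻¹' {x | ∃ w ∈ W x.2, x.1 + w = z} := by
    ext s
    simp [Occ, start]
  rw [e]
  exact .iUnion fun q => ((measurable_start X q).prodMk (measurable_pi_apply q))
    (Set.to_countable _).measurableSet

variable (ν : Measure β) [IsProbabilityMeasure ν] (h : Site d →+ ℤ)
  {β' : Type*} [MeasurableSpace β'] [MeasurableSingletonClass β'] [Countable β']
  (ν' : Measure β') [IsProbabilityMeasure ν'] (X' : β' → Site d) (W' : β' → Finset (Site d))

/-- Two spread out concatenations, the first going to strictly negative heights, are disjoint with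
positive probability once suitable first pieces are forced. -/
theorem prefix_avoid (hR : Spread ν X W h) (hS : Spread ν' X' W' h)
    (hX : ∀ᵐ b ∂ν, h (X b) ≤ 0) (hW : ∀ᵐ b ∂ν, ∀ w ∈ W b, h w ≤ 0) :
    ∃ M : ℕ, ∀ (m n : ℕ) (f : ℕ → β) (g : ℕ → β'),
      (∀ i < m, ν {f i} ≠ 0) → (∀ i < n, ν' {g i} ≠ 0) →
      Disjoint (headOcc X W m f) (headOcc X' W' n g) →
      h (start X f m) < 0 → Set.InjOn h (headOcc X W m f) →
      Set.InjOn h {z ∈ headOcc X' W' n g | h z < 0} →
      (∀ z ∈ headOcc X' W' n g, ∃ i, (M : ℤ) < |z i - start X f m i|) →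
      (∀ z ∈ headOcc X W m f, ∃ i, (M : ℤ) < |z i - start X' g n i|) →
      (∃ i, 2 * (M : ℤ) < |start X f m i - start X' g n i|) →
      ((iid ν).prod (iid ν')) {x | Disjoint (Occ X W x.1) (Occ X' W' x.2)} ≠ 0 := by
  classical
  obtain ⟨M, hM⟩ := free_avoid ν X W h ν' X' W' hR hS
  refine ⟨M, fun m n f g hf hg hdisj hP hF hG hPG hQF hPQ => ?_⟩
  set P := start X f m
  set Q := start X' g n
  set A : Set ((ℕ → β) × (ℕ → β')) := {x | (∀ z ∈ Occ X W x.1, P + z ∉
      {z ∈ headOcc X' W' n g | h z < 0}) ∧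
      (∀ z ∈ Occ X' W' x.2, Q + z ∉ headOcc X W m f) ∧
      ∀ z ∈ Occ X W x.1, ∀ z' ∈ Occ X' W' x.2, P + z ≠ Q + z'}
  have hA0 : ((iid ν).prod (iid ν')) A ≠ 0 :=
    hM P Q _ _ hF hG (fun z hz => hPG z hz.1) hQF hPQ
  have hAm : MeasurableSet A := by
    have e : A = ⋂ (z : Site d) (z' : Site d),
        ({x | z ∈ Occ X W x.1} ∩ {_x | P + z ∈ {z ∈ headOcc X' W' n g | h z < 0}})ᶜ ∩
        ({x | z' ∈ Occ X' W' x.2} ∩ {_x | Q + z' ∈ headOcc X W m f})ᶜ ∩
        ({x | z ∈ Occ X W x.1} ∩ ({x | z' ∈ Occ X' W' x.2} ∩ {_x | P + z = Q + z'}))ᶜ := by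
      ext x
      simp only [A, Set.mem_iInter, Set.mem_inter_iff, Set.mem_compl_iff, Set.mem_ofPred_eq,
        not_and]
      exact ⟨fun hx z z' => ⟨⟨hx.1 z, hx.2.1 z'⟩, fun h1 h2 => hx.2.2 z h1 z' h2⟩,
        fun hx => ⟨fun z hz => (hx z z).1.1 hz, fun z hz => (hx z z).1.2 hz,
          fun z hz z' hz' => (hx z z').2 hz hz'⟩⟩
    rw [e]
    have m1 : ∀ z, MeasurableSet {x : (ℕ → β) × (ℕ → β') | z ∈ Occ X W x.1} := fun z =>
      measurable_fst (measurableSet_mem_occ X W z)
    have m2 : ∀ z, MeasurableSet {x : (ℕ → β) × (ℕ → β') | z ∈ Occ X' W' x.2} := fun z =>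
      measurable_snd (measurableSet_mem_occ X' W' z)
    exact .iInter fun z => .iInter fun z' =>
      ((((m1 z).inter (.const _)).compl).inter (((m2 z').inter (.const _)).compl)).inter
        ((m1 z).inter ((m2 z').inter (.const _))).compl
  set E := begins m f ×ˢ begins n g
  set T : (ℕ → β) × (ℕ → β') → (ℕ → β) × (ℕ → β') := fun x => (after m x.1, after n x.2)
  have hT : Measurable T :=
    ((measurable_after m).comp measurable_fst).prodMk ((measurable_after n).comp measurable_snd)
  have hpos : ((iid ν).prod (iid ν')) (T ⁻¹' A ∩ E) ≠ 0 := by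
    rw [← Measure.restrict_apply (hT hAm), ← Measure.map_apply hT hAm, ← Measure.prod_restrict,
      show T = Prod.map (after m) (after n) from rfl,
      ← Measure.map_prod_map _ _ (measurable_after m) (measurable_after n),
      map_after ν m f hf, map_after ν' n g hg, Measure.prod_smul_left, Measure.prod_smul_right]
    simp only [Measure.smul_apply, smul_eq_mul, mul_ne_zero_iff]
    exact ⟨by rw [iid_begins, prod_ne_zero_iff]; exact fun i hi => hf i (mem_range.1 hi),
      by rw [iid_begins, prod_ne_zero_iff]; exact fun i hi => hg i (mem_range.1 hi), hA0⟩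
  have hae : ∀ᵐ x ∂(iid ν).prod (iid ν'), ∀ i, h (X (x.1 i)) ≤ 0 ∧ ∀ w ∈ W (x.1 i), h w ≤ 0 := by
    have h1 : ∀ᵐ s ∂iid ν, ∀ i : ℕ, h (X (s i)) ≤ 0 ∧ ∀ w ∈ W (s i), h w ≤ 0 := by
      refine ae_all_iff.2 fun i => ?_
      exact (measurePreserving_eval_infinitePi (fun _ : ℕ => ν) i).quasiMeasurePreserving.ae
        (hX.and hW)
    exact Measure.quasiMeasurePreserving_fst.ae h1
  intro h0
  refine hpos (measure_mono_null_ae ?_ h0)
  filter_upwards [hae] with x hx
  rintro ⟨⟨hA1, hA2, hA3⟩, hxm, hxn⟩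
  refine Set.disjoint_left.2 fun z hz hz' => ?_
  rcases occ_split X W hxm hz with h1 | ⟨y, hy, e1⟩ <;>
    rcases occ_split X' W' hxn hz' with h2 | ⟨y', hy', e2⟩
  · exact Set.disjoint_left.1 hdisj h1 h2
  · exact hA2 y' hy' (e2 ▸ h1)
  · refine hA1 y hy ⟨e1 ▸ h2, ?_⟩
    obtain ⟨q, w, hw, rfl⟩ := hy
    rw [map_add, map_add, map_sum]
    have h3 : ∑ p ∈ range q, h (X (after m x.1 p)) ≤ 0 := sum_nonpos fun p _ => (hx _).1
    have h4 : h w ≤ 0 := (hx _).2 w hw
    linarith
  · exact hA3 y hy y' hy' (e1.trans e2.symm)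

end Vale.Agent.P147.Speed
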